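import Vale.Agent.P214.BTWO.At

/-!
# P214, target B, block [B4-TWO]: consequences of `At`
-/

open Set Filter Topology MeasureTheory Metric Matrix
open scoped RealInnerProductSpace ENNReal ContDiff

set_option linter.all false

namespace Vale.Agent.P214.BTWO

open WIN STR WSEQ

noncomputable section

variable {m n Q : ℕ} {E : Type*} [NormedAddCommGroup E] [InnerProductSpace ℝ E]
  [FiniteDimensional ℝ E] [MeasurableSpace E] [BorelSpace E] {T : Submodule ℝ E}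
  {F : Frame m n T} {ν : Measure E} {z : E} {ε s h b : ℝ} {u : Fin n → REF.E m → ℝ}

/-- the codimension is positive -/
lemma At.pos_n (H : At m n Q F ν z ε s h b u) (hs : 0 < s) (h0 : 0 < h) : 0 < n := by
  rcases Nat.eq_zero_or_pos n with rfl | hn
  · exfalso
    have h1 := H.weak (fun a => a.elim0) (-1) ⟨fun a => a.elim0, fun a => a.elim0,
      fun a => a.elim0⟩
    have h2 : 0 < s ^ (m + 1) * h ^ b := mul_pos (pow_pos hs _) (Real.rpow_pos_of_pos h0 _)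
    have h3 := abs_nonneg (∫ y, ∑ a : Fin 0, (fun a => a.elim0 : Fin 0 → REF.E m → ℝ) a
      (F.xc (y - z)) * F.ht u a (y - z) ∂ν)
    linarith
  · exact hn

lemma At.fderiv_le (H : At m n Q F ν z ε s h b u) (hs : 0 < s) (a : Fin n) (x : REF.E m) :
    ‖fderiv ℝ (u a) x‖ ≤ ε := by
  have h1 := H.small a 1 le_rfl (by unfold sW; omega) x
  rwa [norm_iteratedFDeriv_one, pow_one, mul_inv_cancel₀ hs.ne', mul_one] at h1

lemma At.abs_sub_le (H : At m n Q F ν z ε s h b u) (hs : 0 < s) (a : Fin n) (x x' : REF.E m) :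
    |u a x - u a x'| ≤ ε * ‖x - x'‖ :=
  Convex.norm_image_sub_le_of_norm_fderiv_le (𝕜 := ℝ) (s := Set.univ)
    (fun y _ => ((H.smooth a).differentiable (by simp)) y)
    (fun y _ => H.fderiv_le hs a y) convex_univ (mem_univ _) (mem_univ _)

lemma At.abs_le (H : At m n Q F ν z ε s h b u) (hs : 0 < s) (a : Fin n) (x : REF.E m) :
    |u a x| ≤ ε * (s + ‖x‖) := by
  have h1 := H.abs_sub_le hs a x 0
  rw [sub_zero] at h1
  have h2 := H.val a
  have h3 := abs_sub_abs_le_abs_sub (u a x) (u a 0)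
  have h4 : ε * (s + ‖x‖) = ε * s + ε * ‖x‖ := by ring
  linarith

omit [InnerProductSpace ℝ E] [FiniteDimensional ℝ E] [MeasurableSpace E] [BorelSpace E] in
lemma tstR_mono {K : ℕ} {r ρ ρ' M : ℝ} {φ : Fin n → REF.E m → ℝ} (hφ : TstR K r ρ M φ)
    (hρ : ρ ≤ ρ') : TstR K r ρ' M φ :=
  ⟨hφ.smooth, fun a x hx => hφ.supp a x (hρ.trans hx), hφ.bd⟩

lemma At.mono (H : At m n Q F ν z ε s h b u) (hs : 0 < s) (h0 : 0 < h) {h' ε' : ℝ} (hh : h ≤ h')
    (hb : 0 ≤ b) (hε : ε ≤ ε') : At m n Q F ν z ε' s h' b u := by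
  have hn := H.pos_n hs h0
  have e1 : h ^ b ≤ h' ^ b := Real.rpow_le_rpow h0.le hh hb
  have e2 : h ^ (b / 2) ≤ h' ^ (b / 2) := Real.rpow_le_rpow h0.le hh (by linarith)
  refine ⟨H.smooth, fun a => (H.val a).trans (by gcongr), fun a k h1 h2 x =>
    (H.small a k h1 h2 x).trans (by gcongr), H.exact, fun φ M hφ => ?_, H.l2.trans (by gcongr), ?_,
    ?_⟩
  · have hM : 0 ≤ M := by
      have h1 := hφ.bd ⟨0, hn⟩ 0 (Nat.zero_le _) 0
      rw [pow_zero, mul_one] at h1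
      exact (norm_nonneg _).trans h1
    exact (H.weak φ M hφ).trans (by gcongr)
  · filter_upwards [H.slab] with y hy hys
    exact (hy hys).trans (by gcongr)
  · obtain ⟨u₀, hu₀, hm⟩ := H.mass
    refine ⟨u₀, hu₀, fun ψ M h1 h2 h3 => ?_⟩
    have hM : 0 ≤ M := (abs_nonneg _).trans (h3 0)
    exact (hm ψ M h1 h2 h3).trans (by gcongr)

/-- absorption of constants into a power of the height -/
lemma absorb_rpow (C : ℝ) {b b' : ℝ} (hb : b' < b) : ∃ h₀ : ℝ, 0 < h₀ ∧ h₀ ≤ 1 ∧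
    ∀ h, 0 < h → h ≤ h₀ → C * h ^ b ≤ h ^ b' := by
  have hd : 0 < b - b' := by linarith
  refine ⟨min 1 ((max C 1)⁻¹ ^ (1 / (b - b'))), ?_, min_le_left _ _, fun h h0 h1 => ?_⟩
  · have : 0 < (max C 1)⁻¹ ^ (1 / (b - b')) := Real.rpow_pos_of_pos (by positivity) _
    exact lt_min one_pos this
  · have hC : 0 < max C 1 := lt_max_of_lt_right one_pos
    have e1 : h ^ (b - b') ≤ (max C 1)⁻¹ := by
      calc h ^ (b - b') ≤ ((max C 1)⁻¹ ^ (1 / (b - b'))) ^ (b - b') :=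
            Real.rpow_le_rpow h0.le (h1.trans (min_le_right _ _)) hd.le
        _ = (max C 1)⁻¹ := by
            rw [← Real.rpow_mul (by positivity), one_div, inv_mul_cancel₀ hd.ne', Real.rpow_one]
    have e2 : h ^ b = h ^ (b - b') * h ^ b' := by
      rw [← Real.rpow_add h0]; congr 1; ring
    have e3 : 0 ≤ h ^ b' := Real.rpow_nonneg h0.le _
    calc C * h ^ b ≤ max C 1 * h ^ b :=
          mul_le_mul_of_nonneg_right (le_max_left _ _) (Real.rpow_nonneg h0.le _)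
      _ = (max C 1 * h ^ (b - b')) * h ^ b' := by rw [e2]; ring
      _ ≤ 1 * h ^ b' := by
          refine mul_le_mul_of_nonneg_right ?_ e3
          calc max C 1 * h ^ (b - b') ≤ max C 1 * (max C 1)⁻¹ := by gcongr
            _ = 1 := mul_inv_cancel₀ hC.ne'
      _ = h ^ b' := one_mul _

/-- lower bound for the mass of the bumps of radius `ρ` -/
lemma At.bump {c ρ : ℝ} (H : At m n Q F ν 0 ε s h b u) (hQ : 1 ≤ Q) (hc0 : 0 ≤ c)
    (hc : ∀ (x₀ : REF.E m) (ρ : ℝ), 0 < ρ →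
      c * ρ ^ m ≤ ∫ x, eta x₀ ρ x ∂(μH[m] : Measure (REF.E m)))
    (hρ : 0 < ρ) (hh : s ^ m * h ^ (b / 2) ≤ c / 2 * ρ ^ m) {x₀ : REF.E m}
    (hx₀ : ‖x₀‖ + ρ ≤ s) : c / 2 * ρ ^ m ≤ ∫ y, eta x₀ ρ (F.xc y) ∂ν := by
  obtain ⟨u₀, hu₀, h1⟩ := H.mass
  simp only [sub_zero] at h1
  exact mass_bump hu₀ hQ hc h1 hρ hx₀ hc0 hh

end

end Vale.Agent.P214.BTWO
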