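import Vale.Agent.P214.BTWO.Cons
import Vale.Agent.P214.BACC.Two
import Vale.Agent.P214.ALL.Frame

/-!
# P214, target B, block [B4-TWO]: closeness of two references over the same plane, scaled

`close`: `u` is a reference at the centre `0` and the scale `s` (`At`), `ut` is a small exact
reference over the same plane without average up to `CW s ^ (m+1) h ^ b`; then
`‖D^k (ut - u)‖ ≤ s s⁻¹ ^ k h ^ (1/2 + 1/16)` on `‖x‖ ≤ s / 4`, `k ≤ 3`.
-/

open Set Filter Topology MeasureTheory Metric Matrix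
open scoped RealInnerProductSpace ENNReal ContDiff

set_option linter.all false

namespace Vale.Agent.P214.BTWO

open WIN STR WSEQ

noncomputable section

variable {m n Q : ℕ} {E : Type*} [NormedAddCommGroup E] [InnerProductSpace ℝ E]
  [FiniteDimensional ℝ E] [MeasurableSpace E] [BorelSpace E] {T : Submodule ℝ E}
  {F : Frame m n T} {ν : Measure E} {z : E} {ε s h b : ℝ} {u : Fin n → REF.E m → ℝ}

omit [MeasurableSpace E] [BorelSpace E] in
/-- the norm of a lift -/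
lemma norm_lift_le (F : Frame m n T) (u : Fin n → REF.E m → ℝ) (y : E) {B : ℝ}
    (hB : ∀ a, |u a (F.xc y)| ≤ B) : ‖F.lift u y‖ ≤ n * B := by
  unfold Frame.lift
  refine (norm_sum_le _ _).trans ?_
  calc ∑ a, ‖u a (F.xc y) • ((F.bN a : Tᗮ) : E)‖ ≤ ∑ _a : Fin n, B := by
        refine Finset.sum_le_sum fun a _ => ?_
        rw [norm_smul, F.norm_bN, mul_one, Real.norm_eq_abs]
        exact hB a
    _ = n * B := by rw [Finset.sum_const, Finset.card_univ, Fintype.card_fin, nsmul_eq_mul]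

/-- the slab of the measure at the centre `0` -/
lemma At.slab_co (H : At m n Q F ν 0 ε s h b u) (hs : 0 < s) (hε : 0 ≤ ε) :
    ∀ᵐ y ∂ν, ‖F.xc y‖ < s → ‖FV.co T y‖ ≤ ε * s + n * (ε * (s + s)) := by
  filter_upwards [H.slab] with y hy hys
  rw [sub_zero] at hy
  have h1 := hy hys
  have h2 : ‖F.lift u y‖ ≤ n * (ε * (s + s)) := by
    refine norm_lift_le F u y fun a => (H.abs_le hs a _).trans ?_
    gcongr
  have h3 : FV.co T y = KMS.rel T (F.lift u) y + F.lift u y := by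
    unfold KMS.rel; abel
  rw [h3]
  exact (norm_add_le _ _).trans (add_le_add h1 h2)

/-- exponent used in the bumps -/
def dl (m : ℕ) : ℝ := 1 / (8 * (5 * m + 18))

lemma dl_pos (m : ℕ) : 0 < dl m := by unfold dl; positivity

lemma dl_mul (m : ℕ) : dl m * (5 * m + 18) = 1 / 8 := by
  unfold dl; field_simp

/-- **closeness** of two references over the same plane -/
theorem close (E : Type*) [NormedAddCommGroup E] [InnerProductSpace ℝ E]
    [FiniteDimensional ℝ E] [MeasurableSpace E] [BorelSpace E] (m n Q : ℕ) (hQ : 1 ≤ Q)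
    (CW C' : ℝ) (hC' : 0 < C') :
    ∃ ε₀ : ℝ, 0 < ε₀ ∧ ε₀ ≤ 1 ∧ ∀ (T : Submodule ℝ E) (F : Frame m n T) (ν : Measure E)
      (ε s h b : ℝ) (u ut : Fin n → REF.E m → ℝ), 0 < s → 0 ≤ ε → ε ≤ ε₀ → 0 < h → h ≤ ε₀ →
      3 / 4 ≤ b → IsFiniteMeasure ν → At m n Q F ν 0 ε s h b u →
      (∀ a, ContDiff ℝ ∞ (ut a)) →
      (∀ a, ∀ k, 1 ≤ k → k ≤ sW m → ∀ x,
        ‖iteratedFDeriv ℝ k (ut a) x‖ ≤ C' * ε * (s * s⁻¹ ^ k)) →
      (∀ a x, ‖x‖ < s / 2 → REF.Mop ut a x = 0) →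
      (∀ (φ : Fin n → REF.E m → ℝ) (M : ℝ), TstR (sW m) s (9 / 16 * s) M φ →
        |∫ y, ∑ a, φ a (F.xc y) * F.ht ut a y ∂ν| ≤ CW * (s ^ (m + 1) * h ^ b) * M) →
      ∀ a, ∀ k ≤ 3, ∀ x, ‖x‖ ≤ s / 4 →
        ‖iteratedFDeriv ℝ k (fun x => ut a x - u a x) x‖
          ≤ s * s⁻¹ ^ k * h ^ ((1:ℝ) / 2 + 1 / 16) := by
  obtain ⟨ε₁, hε₁, hacc⟩ := BACC.acc_two E m n
  obtain ⟨c, C, hc, hC, hmass, -, -⟩ := exists_consts m
  set C₀ : ℝ := 2 ^ (m + 1 + sW m) * max 1 CW with hC₀d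
  have hC₀ : 0 ≤ C₀ := by positivity
  have hdl := dl_pos m
  have hdm := dl_mul m
  obtain ⟨ε₂, hε₂, hacc⟩ := hacc (sW m) 3 (1 / 2 + 1 / 12 + dl m) (3 / 4) (dl m) C₀ (c / 2)
    (by positivity) hdl hC₀ (by positivity) (by
      have : (sW m : ℝ) = 4 * m + 16 := by unfold sW; push_cast; ring
      rw [this]
      nlinarith)
  obtain ⟨h₁, hh₁, hh₁', hab1⟩ := absorb_rpow (2 ^ (m + 1) / c) (b := 3 / 8) (b' := dl m * m) (by
    have : (0:ℝ) ≤ m := Nat.cast_nonneg m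
    nlinarith)
  obtain ⟨h₂, hh₂, hh₂', hab2⟩ := absorb_rpow 4 (b := 1 / 2 + 1 / 12) (b' := 1 / 2 + 1 / 16)
    (by norm_num)
  refine ⟨min (min (min 1 ε₂) (min h₁ h₂)) (min ε₁ (ε₁ / C')), by positivity,
    ((min_le_left _ _).trans (min_le_left _ _)).trans (min_le_left _ _), ?_⟩
  intro T F ν ε s h b u ut hs hε hεe h0 hhe hb hfin H hut hsm hex hwk a k hk x hx
  have hεε₁ : ε ≤ ε₁ := hεe.trans ((min_le_right _ _).trans (min_le_left _ _))
  have hC'ε : C' * ε ≤ ε₁ := by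
    have h1 : ε ≤ ε₁ / C' := hεe.trans ((min_le_right _ _).trans (min_le_right _ _))
    rw [le_div_iff₀ hC'] at h1
    linarith
  have hm := hhe.trans (min_le_left _ _)
  have hh1 : h ≤ 1 := (hm.trans (min_le_left _ _)).trans (min_le_left _ _)
  have hhε₂ : h ≤ ε₂ := (hm.trans (min_le_left _ _)).trans (min_le_right _ _)
  have hhh₁ : h ≤ h₁ := (hm.trans (min_le_right _ _)).trans (min_le_left _ _)
  have hhh₂ : h ≤ h₂ := (hm.trans (min_le_right _ _)).trans (min_le_right _ _)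
  have hn := H.pos_n hs h0
  have hs2 : 0 < s / 2 := by positivity
  have hss : s / 2 ≤ s := by linarith
  have hsc : ∀ k, 1 ≤ k → s * s⁻¹ ^ k ≤ s / 2 * (s / 2)⁻¹ ^ k := fun k hk =>
    scaled_mono hs2 hss hk
  have hbe : h ^ b ≤ h ^ ((3:ℝ) / 4) := Real.rpow_le_rpow_of_exponent_ge h0 hh1 hb
  have hK : 2 * m + 1 ≤ sW m := by unfold sW; omega
  have hpw : s ^ (m + 1) = 2 ^ (m + 1) * (s / 2) ^ (m + 1) := by
    rw [← mul_pow]; congr 1; ring
  have hss2 : s / (s / 2) = 2 := by field_simp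
  have hMn : ∀ (φ : Fin n → REF.E m → ℝ) (M : ℝ), TstR (sW m) (s / 2) (s / 2) M φ → 0 ≤ M := by
    intro φ M hφ
    have h1 := hφ.bd ⟨0, hn⟩ 0 (Nat.zero_le _) 0
    rw [pow_zero, mul_one] at h1
    exact (norm_nonneg _).trans h1
  have hTwo : BACC.Two m n (sW m) T F ν ε₁ (3 / 4) (dl m) C₀ (c / 2) (s / 2) h u ut := by
    refine ⟨hfin, ⟨ε * s + n * (ε * (s + s)), ?_⟩, ⟨H.smooth, ?_, ?_⟩, ⟨hut, ?_, hex⟩, ?_, ?_, ?_⟩
    · filter_upwards [H.slab_co hs hε] with y hy hyb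
      rw [← FV.co_apply]
      refine hy ?_
      rw [F.norm_xc]
      rw [mem_ball, dist_zero_right] at hyb
      linarith
    · intro a k hk1 hk2 x _
      have h1 := H.small a k hk1 (hk2.trans hK) x
      have h2 := hsc k hk1
      calc _ ≤ ε * (s * s⁻¹ ^ k) := h1
        _ ≤ ε₁ * (s / 2 * (s / 2)⁻¹ ^ k) := by gcongr
        _ = _ := by ring
    · intro a x hx
      exact H.exact a x (by linarith)
    · intro a k hk1 hk2 x _
      have h1 := hsm a k hk1 (hk2.trans hK) x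
      have h2 := hsc k hk1
      calc _ ≤ C' * ε * (s * s⁻¹ ^ k) := h1
        _ ≤ ε₁ * (s / 2 * (s / 2)⁻¹ ^ k) := by gcongr
        _ = _ := by ring
    · intro φ M hφ
      have hM := hMn φ M hφ
      have h1 := H.weak φ _ (tstR_resc hφ hn hs2 hss hss)
      simp only [sub_zero] at h1
      refine h1.trans ?_
      rw [hss2, hpw]
      calc 2 ^ (m + 1) * (s / 2) ^ (m + 1) * h ^ b * (M * 2 ^ sW m)
          = 2 ^ (m + 1 + sW m) * 1 * ((s / 2) ^ (m + 1) * h ^ b) * M := by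
            rw [pow_add 2 (m + 1)]; ring
        _ ≤ 2 ^ (m + 1 + sW m) * max 1 CW * ((s / 2) ^ (m + 1) * h ^ ((3:ℝ) / 4)) * M := by
            gcongr
            exact le_max_left _ _
    · intro φ M hφ
      have hM := hMn φ M hφ
      have h1 := hwk φ _ (tstR_resc (ρ' := 9 / 16 * s) hφ hn hs2 hss (by linarith))
      refine h1.trans ?_
      rw [hss2, hpw]
      calc CW * (2 ^ (m + 1) * (s / 2) ^ (m + 1) * h ^ b) * (M * 2 ^ sW m)
          = 2 ^ (m + 1 + sW m) * CW * ((s / 2) ^ (m + 1) * h ^ b) * M := by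
            rw [pow_add 2 (m + 1)]; ring
        _ ≤ 2 ^ (m + 1 + sW m) * max 1 CW * ((s / 2) ^ (m + 1) * h ^ b) * M := by
            gcongr
            exact le_max_right _ _
        _ ≤ 2 ^ (m + 1 + sW m) * max 1 CW * ((s / 2) ^ (m + 1) * h ^ ((3:ℝ) / 4)) * M := by
            gcongr
    · intro x₀ hx₀
      have hρ : 0 < s / 2 * h ^ dl m := by positivity
      refine H.bump (c := c) hQ hc.le hmass hρ ?_ (hx₀.trans hss)
      have h1 := hab1 h h0 hhh₁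
      have e1 : (h ^ dl m) ^ m = h ^ (dl m * m) := by
        rw [← Real.rpow_natCast, ← Real.rpow_mul h0.le]
      have e2 : h ^ (b / 2) ≤ h ^ ((3:ℝ) / 8) :=
        Real.rpow_le_rpow_of_exponent_ge h0 hh1 (by linarith)
      rw [mul_pow, e1]
      have e3 : h ^ ((3:ℝ) / 8) ≤ c / 2 ^ (m + 1) * h ^ (dl m * m) := by
        have h2 : c / 2 ^ (m + 1) * (2 ^ (m + 1) / c * h ^ ((3:ℝ) / 8)) = h ^ ((3:ℝ) / 8) := by
          field_simp
        rw [← h2]
        gcongr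
      calc s ^ m * h ^ (b / 2) ≤ s ^ m * (c / 2 ^ (m + 1) * h ^ (dl m * m)) := by
            gcongr; exact e2.trans e3
        _ = c / 2 * ((s / 2) ^ m * h ^ (dl m * m)) := by
            rw [div_pow, pow_succ]; field_simp
  have hfin := hacc T F ν (s / 2) h u ut hs2 h0 hhε₂ hTwo a k hk x (by linarith)
  have e1 : (1:ℝ) / 2 + 1 / 12 + dl m - dl m = 1 / 2 + 1 / 12 := by ring
  rw [e1] at hfin
  refine hfin.trans ?_
  have e2 : s / 2 * (s / 2)⁻¹ ^ k ≤ 4 * (s * s⁻¹ ^ k) := by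
    have e3 : (s / 2)⁻¹ = 2 * s⁻¹ := by field_simp
    rw [e3, mul_pow]
    have e4 : (2:ℝ) ^ k ≤ 2 ^ 3 := pow_le_pow_right₀ (by norm_num) hk
    have e5 : 0 ≤ s * s⁻¹ ^ k := by positivity
    nlinarith
  have e3 := hab2 h h0 hhh₂
  have e5 : 0 ≤ s * s⁻¹ ^ k := by positivity
  have e6 : (0:ℝ) ≤ h ^ ((1:ℝ) / 2 + 1 / 12) := by positivity
  calc s / 2 * (s / 2)⁻¹ ^ k * h ^ ((1:ℝ) / 2 + 1 / 12)
      ≤ 4 * (s * s⁻¹ ^ k) * h ^ ((1:ℝ) / 2 + 1 / 12) := mul_le_mul_of_nonneg_right e2 e6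
    _ = s * s⁻¹ ^ k * (4 * h ^ ((1:ℝ) / 2 + 1 / 12)) := by ring
    _ ≤ s * s⁻¹ ^ k * h ^ ((1:ℝ) / 2 + 1 / 16) := mul_le_mul_of_nonneg_left e3 e5

end

end Vale.Agent.P214.BTWO
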