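import Vale.Agent.P214.BTWO.Heights
import Vale.Agent.P214.BTWO.Close
import Vale.Agent.P214.RG.Same

/-!
# P214, target B, block [B4-TWO]: comparison of the heights at two centres

`height_comp`: if the height `h'` of the chart `(T', u')` at the centre `c` is attained at the scale
`s / 8`, and the regraphed reference `ut` is close to `u`, then `h' ≤ A h`, with `h` the height of
the chart `(T, u)` at the scale `s / 4`.
-/

open Set Filter Topology MeasureTheory Metric Matrix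
open scoped RealInnerProductSpace ENNReal ContDiff

set_option linter.all false

namespace Vale.Agent.P214.BTWO

open WIN STR

noncomputable section

variable {m n Q : ℕ} {E : Type*} [NormedAddCommGroup E] [InnerProductSpace ℝ E]
  [FiniteDimensional ℝ E] {T T' : Submodule ℝ E}

/-- heights over two planes of the same graph -/
lemma rel_le_of_same {w w' : E → E} (hS : RG.Same T w T' w')
    (hlip : ∀ x y, ‖w' x - w' y‖ ≤ ‖x - y‖) (Y : E) :
    ‖KMS.rel T' w' Y‖ ≤ 2 * ‖KMS.rel T w Y‖ := by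
  have h0 : KMS.rel T' w' (RG.gr T w Y) = 0 := (hS.iff _).1 (RG.rel_gr hS.l Y)
  have h1 : KMS.rel T' w' Y = FV.co T' (Y - RG.gr T w Y) - (w' Y - w' (RG.gr T w Y)) := by
    rw [← sub_zero (KMS.rel T' w' Y), ← h0]
    unfold KMS.rel
    rw [map_sub]
    abel
  have h2 := RG.sub_gr (T := T) (w := w) Y
  rw [h1]
  have h3 : ‖FV.co T' (Y - RG.gr T w Y)‖ ≤ ‖KMS.rel T w Y‖ := by
    rw [h2]; exact FV.norm_co_le T' _
  have h4 := hlip Y (RG.gr T w Y)
  rw [h2] at h4
  calc _ ≤ ‖FV.co T' (Y - RG.gr T w Y)‖ + ‖w' Y - w' (RG.gr T w Y)‖ := norm_sub_le _ _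
    _ ≤ _ := by linarith

/-- the lift of a reference with small slopes is Lipschitz -/
lemma lip_lift (F : Frame m n T) {u : Fin n → REF.E m → ℝ} {ε : ℝ}
    (h : ∀ a x x', |u a x - u a x'| ≤ ε * ‖x - x'‖) (hε : n * ε ≤ 1) (x y : E) :
    ‖F.lift u x - F.lift u y‖ ≤ ‖x - y‖ := by
  have h1 : F.lift u x - F.lift u y = ∑ a, (u a (F.xc x) - u a (F.xc y)) • ((F.bN a : Tᗮ) : E) := by
    unfold Frame.lift
    rw [← Finset.sum_sub_distrib]
    exact Finset.sum_congr rfl fun a _ => by rw [sub_smul]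
  rw [h1]
  have h2 : ∀ a, ‖((F.bN a : Tᗮ) : E)‖ = 1 := fun a => by
    have := F.bN.orthonormal.norm_eq_one a
    rwa [Submodule.coe_norm] at this
  have h3 : ‖F.xc x - F.xc y‖ ≤ ‖x - y‖ := by
    rw [← STR.xc_sub, STR.norm_xc]
    exact Submodule.norm_starProjection_apply_le T _
  calc ‖∑ a, (u a (F.xc x) - u a (F.xc y)) • ((F.bN a : Tᗮ) : E)‖
      ≤ ∑ a, ‖(u a (F.xc x) - u a (F.xc y)) • ((F.bN a : Tᗮ) : E)‖ := norm_sum_le _ _
    _ ≤ ∑ _a : Fin n, ε * ‖F.xc x - F.xc y‖ := by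
        refine Finset.sum_le_sum fun a _ => ?_
        rw [norm_smul, h2, mul_one, Real.norm_eq_abs]
        exact h a _ _
    _ = (n * ε) * ‖F.xc x - F.xc y‖ := by simp; ring
    _ ≤ 1 * ‖x - y‖ := by
        have := norm_nonneg (F.xc x - F.xc y)
        nlinarith
    _ = _ := one_mul _

/-- the absorption -/
lemma absorb_heights {D Cm A₀ : ℝ} (hD : 1 ≤ D) (hCm : 0 ≤ Cm) (hA : 0 ≤ A₀) :
    ∃ e₁ : ℝ, 0 < e₁ ∧ e₁ ≤ 1 ∧ ∀ h h', 0 < h → 0 < h' → h' ≤ e₁ →
      h' ≤ D * (8 * h + 8 * A₀ * ((max h h') ^ ((1:ℝ) / 2 + 1 / 16)) ^ 2 * Cm) →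
      h' ≤ 16 * D * h := by
  obtain ⟨e₁, he₁, he₁1, hab⟩ := absorb_rpow (16 * D * A₀ * Cm) (b := 9 / 8) (b' := 1)
    (by norm_num)
  refine ⟨e₁, he₁, he₁1, fun h h' h0 h0' hh' H => ?_⟩
  rcases le_total h' h with hle | hle
  · calc h' ≤ 1 * h := by rw [one_mul]; exact hle
      _ ≤ 16 * D * h := by gcongr; linarith
  · rw [max_eq_right hle] at H
    have h1 : (h' ^ ((1:ℝ) / 2 + 1 / 16)) ^ 2 = h' ^ ((9:ℝ) / 8) := by
      rw [← Real.rpow_natCast, ← Real.rpow_mul h0'.le]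
      norm_num
    rw [h1] at H
    have h2 := hab h' h0' hh'
    rw [Real.rpow_one] at h2
    have h3 : D * (8 * h + 8 * A₀ * h' ^ ((9:ℝ) / 8) * Cm)
        = 8 * D * h + 1 / 2 * (16 * D * A₀ * Cm * h' ^ ((9:ℝ) / 8)) := by ring
    rw [h3] at H
    linarith

variable [MeasurableSpace E] [BorelSpace E]

/-- **[TW3] comparison of the heights at two centres** -/
theorem height_comp (n : ℕ) : ∃ e₀ : ℝ, 0 < e₀ ∧ ∀ D Cm : ℝ, 1 ≤ D → 0 ≤ Cm →
    ∃ A e₁ : ℝ, 1 ≤ A ∧ 0 < e₁ ∧ ∀ (m Q : ℕ) (T T' : Submodule ℝ E) (F : Frame m n T)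
      (F' : Frame m n T') (ν : Measure E) (c : E) (ε s h h' g g' b : ℝ)
      (u u' ut : Fin n → REF.E m → ℝ), IsFiniteMeasure ν → 0 < s → 0 ≤ ε → ε ≤ e₀ → 0 < h →
      0 < h' → h' ≤ e₁ →
      ‖T.starProjection - T'.starProjection‖ ≤ ε → ‖c‖ ≤ s / 64 →
      At m n Q F ν 0 ε s g b u → At m n Q F' ν c ε s g' b u' →
      RG.Same T (F.lift ut) T' (fun Y => F'.lift u' (Y - c) + FV.co T' c) →
      (∀ a x, ‖x‖ ≤ s / 4 → |ut a x - u a x| ≤ s * (max h h') ^ ((1:ℝ) / 2 + 1 / 16)) →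
      ν.real {y | ‖F.xc y‖ < s / 4} ≤ Cm * s ^ m →
      ∫ y in {y | ‖F.xc y‖ < s / 4}, ‖KMS.rel T (F.lift u) y‖ ^ 2 ∂ν ≤ s ^ (m + 2) * h →
      s ^ (m + 2) * h' ≤
        D * ∫ y in {y | ‖F'.xc (y - c)‖ < s / 8}, ‖KMS.rel T' (F'.lift u') (y - c)‖ ^ 2 ∂ν →
      h' ≤ A * h := by
  set e₀ : ℝ := 1 / (64 * (n + 1)) with he₀
  have hn : (0:ℝ) ≤ n := Nat.cast_nonneg n
  refine ⟨e₀, by positivity, fun D Cm hD hCm => ?_⟩
  obtain ⟨e₁, he₁, he₁1, hab⟩ := absorb_heights (A₀ := (n:ℝ)) hD hCm hn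
  refine ⟨16 * D, e₁, by linarith, he₁, ?_⟩
  intro m Q T T' F F' ν c ε s h h' g g' b u u' ut hfin hs hε hεe h0 h0' hh' hTT hc H H' hS hcl hmass
    hu hd
  haveI := hfin
  have hnε : (n + 1) * ε ≤ 1 / 64 := by
    have h1 : (n + 1 : ℝ) * ε ≤ (n + 1) * e₀ := by gcongr
    have h2 : (n + 1 : ℝ) * e₀ = 1 / 64 := by rw [he₀]; field_simp
    linarith
  have hnn : 0 ≤ (n:ℝ) * ε := by positivity
  have hε64 : ε ≤ 1 / 64 := by nlinarith
  have hnε' : (n:ℝ) * ε ≤ 1 / 64 := by nlinarith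
  -- the heights over the two planes
  have hlip : ∀ x y, ‖(fun Y => F'.lift u' (Y - c) + FV.co T' c) x
      - (fun Y => F'.lift u' (Y - c) + FV.co T' c) y‖ ≤ ‖x - y‖ := by
    intro x y
    have h1 := lip_lift F' (u := u') (ε := ε) (fun a x x' => H'.abs_sub_le hs a x x')
      (by linarith) (x - c) (y - c)
    have e1 : (x - c) - (y - c) = x - y := by abel
    rw [e1] at h1
    simpa using h1
  have hle : ∀ Y, ‖KMS.rel T' (F'.lift u') (Y - c)‖ ≤ 2 * ‖KMS.rel T (F.lift ut) Y‖ := by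
    intro Y
    have h1 := rel_le_of_same hS hlip Y
    have h2 : KMS.rel T' (fun Y => F'.lift u' (Y - c) + FV.co T' c) Y
        = KMS.rel T' (F'.lift u') (Y - c) := by
      unfold KMS.rel
      rw [map_sub]
      simp only [sub_sub]
      congr 1
      exact add_comm _ _
    rwa [h2] at h1
  -- the inclusion of the cylinders
  have hin : ∀ᵐ y ∂ν, ‖F'.xc (y - c)‖ < s / 8 → ‖F.xc (y - 0)‖ < s / 4 := by
    filter_upwards [H'.slab] with y hy hlt
    rw [sub_zero, STR.norm_xc]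
    rw [STR.norm_xc] at hlt hy
    have h1 := hy (hlt.trans (by linarith))
    have h2 : ‖F'.lift u' (y - c)‖ ≤ n * (ε * (s + s / 8)) := by
      refine norm_lift_le F' u' (y - c) fun a => (H'.abs_le hs a _).trans ?_
      have : ‖F'.xc (y - c)‖ ≤ s / 8 := by rw [STR.norm_xc]; exact hlt.le
      gcongr
    have h3 : y - c = T'.starProjection (y - c) + (KMS.rel T' (F'.lift u') (y - c)
        + F'.lift u' (y - c)) := by
      unfold KMS.rel
      rw [sub_add_cancel, FV.co_apply]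
      abel
    have h4 : ‖y - c‖ ≤ s / 8 + (ε * s + n * (ε * (s + s / 8))) := by
      calc ‖y - c‖ = ‖T'.starProjection (y - c) + (KMS.rel T' (F'.lift u') (y - c)
            + F'.lift u' (y - c))‖ := by rw [← h3]
        _ ≤ ‖T'.starProjection (y - c)‖ + (‖KMS.rel T' (F'.lift u') (y - c)‖
            + ‖F'.lift u' (y - c)‖) := (norm_add_le _ _).trans (by gcongr; exact norm_add_le _ _)
        _ ≤ _ := by linarith
    have h5 : ‖y - c‖ ≤ s / 4 := by
      have e1 : s / 8 + (ε * s + n * (ε * (s + s / 8)))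
          = s / 8 + (ε + 9 / 8 * (n * ε)) * s := by ring
      rw [e1] at h4
      have e2 : (ε + 9 / 8 * (n * ε)) * s ≤ 1 / 8 * s := by gcongr; linarith
      linarith
    have h6 : T.starProjection y = T'.starProjection (y - c)
        + ((T.starProjection - T'.starProjection) (y - c) + T.starProjection c) := by
      rw [_root_.sub_apply, map_sub T.starProjection y c]
      abel
    rw [h6]
    have h7 : ‖(T.starProjection - T'.starProjection) (y - c)‖ ≤ 1 / 64 * (s / 4) :=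
      (ContinuousLinearMap.le_opNorm _ _).trans (by gcongr; linarith)
    have h8 : ‖T.starProjection c‖ ≤ s / 64 :=
      (Submodule.norm_starProjection_apply_le T _).trans hc
    have h9 := norm_add_le ((T.starProjection - T'.starProjection) (y - c)) (T.starProjection c)
    refine (norm_add_le _ _).trans_lt ?_
    linarith
  -- integrability
  have hi : IntegrableOn (fun y => ‖KMS.rel T (F.lift u) (y - 0)‖ ^ 2)
      {y | ‖F.xc (y - 0)‖ < s / 4} ν := by
    refine relsq_int F (fun a => (H.smooth a).continuous) (c := ε * s) ?_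
    filter_upwards [H.slab] with y hy hlt
    exact hy (hlt.trans (by linarith))
  have hfinal := height_le F F' (ν := ν) (z₀ := 0) (z := c) (t := s / 8) (S := s / 4)
    (η := s * (max h h') ^ ((1:ℝ) / 2 + 1 / 16)) (u := u) (ut := ut) (u' := u')
    (fun a x hx => hcl a x hx.le) (fun Y _ => by rw [sub_zero]; exact hle Y) hin hi
  simp only [sub_zero] at hfinal
  have hs2 : 0 < s ^ (m + 2) := by positivity
  refine hab h h' h0 h0' hh' ?_
  set M : ℝ := (max h h') ^ ((1:ℝ) / 2 + 1 / 16) with hM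
  have h1 : s ^ (m + 2) * h' ≤ s ^ (m + 2) * (D * (8 * h + 8 * n * M ^ 2 * Cm)) := by
    calc s ^ (m + 2) * h' ≤ D * (8 * (s ^ (m + 2) * h)
          + 8 * n * (s * M) ^ 2 * (Cm * s ^ m)) := by
          refine hd.trans ?_
          refine mul_le_mul_of_nonneg_left (hfinal.trans ?_) (by linarith)
          gcongr
      _ = _ := by ring
  exact le_of_mul_le_mul_left h1 hs2

end

end Vale.Agent.P214.BTWO
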