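import Vale.Agent.P214.BTWO.Main

/-!
# P214, target B, block [B4-TWO]: closeness of the lifts, and the numbers of the assembly
-/

open Set Filter Topology MeasureTheory Metric Matrix
open scoped RealInnerProductSpace ENNReal ContDiff

set_option linter.all false

namespace Vale.Agent.P214.BTWO

open WIN STR WSEQ

noncomputable section

variable {m n Q : ℕ} {E : Type*} [NormedAddCommGroup E] [InnerProductSpace ℝ E]
  [FiniteDimensional ℝ E] {T : Submodule ℝ E}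

/-- closeness of the components gives closeness of the lifts -/
theorem lift_close (F : Frame m n T) {u ut : Fin n → REF.E m → ℝ}
    (hu : ∀ a, ContDiff ℝ ∞ (u a)) (hut : ∀ a, ContDiff ℝ ∞ (ut a)) {s e : ℝ} (hs : 0 < s)
    (hcl : ∀ a, ∀ k ≤ 3, ∀ x, ‖x‖ ≤ s / 4 →
      ‖iteratedFDeriv ℝ k (fun x => ut a x - u a x) x‖ ≤ s * s⁻¹ ^ k * e) {y : E}
    (hy : ‖T.starProjection y‖ ≤ s / 4) :
    ‖F.lift u y - F.lift ut y‖ ≤ s * (n * e) ∧
      ‖fderiv ℝ (F.lift u) y - fderiv ℝ (F.lift ut) y‖ ≤ n * e := by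
  have hxc : ‖F.xc y‖ ≤ s / 4 := by rwa [F.norm_xc]
  constructor
  · have h1 : F.lift u y - F.lift ut y = - F.lift (fun a x => ut a x - u a x) y := by
      unfold Frame.lift
      rw [← Finset.sum_sub_distrib, ← Finset.sum_neg_distrib]
      refine Finset.sum_congr rfl fun a _ => ?_
      rw [← sub_smul, ← neg_smul, neg_sub]
    rw [h1, norm_neg]
    refine (norm_lift_le F (fun a x => ut a x - u a x) y (B := s * e) fun a => ?_).trans
      (le_of_eq (by ring))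
    have h2 := hcl a 0 (by norm_num) _ hxc
    rwa [norm_iteratedFDeriv_zero, pow_zero, mul_one] at h2
  · have h1 : F.lift (fun a x => ut a x - u a x) = fun y => F.lift ut y - F.lift u y := by
      funext y
      unfold Frame.lift
      rw [← Finset.sum_sub_distrib]
      exact Finset.sum_congr rfl fun a _ => sub_smul _ _ _
    have h2 := COORD.norm_iteratedFDeriv_lift F (j := 1) (u := fun a x => ut a x - u a x)
      (fun a => ((hut a).sub (hu a)).of_le (by exact_mod_cast le_top)) y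
    have hd1 : DifferentiableAt ℝ (F.lift ut) y :=
      ((F.contDiff_lift hut).differentiable (by simp)) y
    have hd2 : DifferentiableAt ℝ (F.lift u) y :=
      ((F.contDiff_lift hu).differentiable (by simp)) y
    rw [norm_iteratedFDeriv_one, h1, fderiv_fun_sub hd1 hd2, norm_sub_rev] at h2
    refine h2.trans ?_
    calc ∑ a, ‖iteratedFDeriv ℝ 1 (fun x => ut a x - u a x) (F.xc y)‖ ≤ ∑ _a : Fin n, e := by
          refine Finset.sum_le_sum fun a _ => ?_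
          have h3 := hcl a 1 (by norm_num) _ hxc
          rwa [pow_one, mul_inv_cancel₀ hs.ne', one_mul] at h3
      _ = n * e := by rw [Finset.sum_const, Finset.card_univ, Fintype.card_fin, nsmul_eq_mul]

/-- the numbers of the assembly -/
lemma exists_nums (A C D N : ℝ) (hA : 1 ≤ A) (hN : 0 ≤ N) {δ : ℝ} (hδ : 0 < δ) :
    ∃ η₀ : ℝ, 0 < η₀ ∧ η₀ ≤ 1 ∧ ∀ h, 0 < h → h ≤ η₀ →
      N * (A * h) ^ ((1:ℝ) / 2 + 1 / 16) ≤ δ ∧
      C * (N * (A * h) ^ ((1:ℝ) / 2 + 1 / 16)) ^ 2 ≤ δ * h ∧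
      D * (A * h) ^ ((1:ℝ) / 3) + N * (A * h) ^ ((1:ℝ) / 2 + 1 / 16) ≤ h ^ ((1:ℝ) / 4) ∧
      D * (A * h) ^ ((1:ℝ) / 3) ≤ δ := by
  have hA0 : 0 < A := by linarith
  obtain ⟨h₁, hh₁, -, hab1⟩ := absorb_rpow (N * A ^ ((1:ℝ) / 2 + 1 / 16) / δ)
    (b := 1 / 2 + 1 / 16) (b' := 0) (by norm_num)
  obtain ⟨h₂, hh₂, -, hab2⟩ := absorb_rpow (C * (N * A ^ ((1:ℝ) / 2 + 1 / 16)) ^ 2 / δ)
    (b := 1 + 1 / 8) (b' := 1) (by norm_num)
  obtain ⟨h₃, hh₃, -, hab3⟩ := absorb_rpow (2 * (D * A ^ ((1:ℝ) / 3)))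
    (b := 1 / 3) (b' := 1 / 4) (by norm_num)
  obtain ⟨h₄, hh₄, -, hab4⟩ := absorb_rpow (2 * (N * A ^ ((1:ℝ) / 2 + 1 / 16)))
    (b := 1 / 2 + 1 / 16) (b' := 1 / 4) (by norm_num)
  obtain ⟨h₅, hh₅, -, hab5⟩ := absorb_rpow (D * A ^ ((1:ℝ) / 3) / δ)
    (b := 1 / 3) (b' := 0) (by norm_num)
  refine ⟨min (min (min h₁ h₂) (min h₃ h₄)) (min h₅ 1), by positivity,
    (min_le_right _ _).trans (min_le_right _ _), fun h h0 hh => ?_⟩
  have m1 := hh.trans (min_le_left _ _)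
  have g1 := hab1 h h0 ((m1.trans (min_le_left _ _)).trans (min_le_left _ _))
  have g2 := hab2 h h0 ((m1.trans (min_le_left _ _)).trans (min_le_right _ _))
  have g3 := hab3 h h0 ((m1.trans (min_le_right _ _)).trans (min_le_left _ _))
  have g4 := hab4 h h0 ((m1.trans (min_le_right _ _)).trans (min_le_right _ _))
  have g5 := hab5 h h0 ((hh.trans (min_le_right _ _)).trans (min_le_left _ _))
  rw [Real.rpow_zero] at g1 g5
  rw [Real.rpow_one] at g2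
  have e1 : (A * h) ^ ((1:ℝ) / 2 + 1 / 16) = A ^ ((1:ℝ) / 2 + 1 / 16) * h ^ ((1:ℝ) / 2 + 1 / 16) :=
    Real.mul_rpow hA0.le h0.le
  have e2 : (A * h) ^ ((1:ℝ) / 3) = A ^ ((1:ℝ) / 3) * h ^ ((1:ℝ) / 3) :=
    Real.mul_rpow hA0.le h0.le
  have e3 : (h ^ ((1:ℝ) / 2 + 1 / 16)) ^ 2 = h ^ ((1:ℝ) + 1 / 8) := by
    rw [← Real.rpow_natCast, ← Real.rpow_mul h0.le]; norm_num
  refine ⟨?_, ?_, ?_, ?_⟩
  · rw [e1]
    calc N * (A ^ ((1:ℝ) / 2 + 1 / 16) * h ^ ((1:ℝ) / 2 + 1 / 16))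
        = δ * (N * A ^ ((1:ℝ) / 2 + 1 / 16) / δ * h ^ ((1:ℝ) / 2 + 1 / 16)) := by field_simp
      _ ≤ δ * 1 := by gcongr
      _ = δ := mul_one _
  · rw [e1]
    calc C * (N * (A ^ ((1:ℝ) / 2 + 1 / 16) * h ^ ((1:ℝ) / 2 + 1 / 16))) ^ 2
        = C * (N * A ^ ((1:ℝ) / 2 + 1 / 16)) ^ 2 * (h ^ ((1:ℝ) / 2 + 1 / 16)) ^ 2 := by ring
      _ = δ * (C * (N * A ^ ((1:ℝ) / 2 + 1 / 16)) ^ 2 / δ * h ^ ((1:ℝ) + 1 / 8)) := by
          rw [e3]; field_simp
      _ ≤ δ * h := by gcongr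
  · rw [e1, e2]
    linarith
  · rw [e2]
    calc D * (A ^ ((1:ℝ) / 3) * h ^ ((1:ℝ) / 3))
        = δ * (D * A ^ ((1:ℝ) / 3) / δ * h ^ ((1:ℝ) / 3)) := by field_simp
      _ ≤ δ * 1 := by gcongr
      _ = δ := mul_one _

end

end Vale.Agent.P214.BTWO
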