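import Vale.Agent.P214.WSEQ.W6

/-!
# P214, target B, block [B4-TWO]: one reference at one centre and at one scale

`At m n Q F ν z ε s h b u`: `u` is an exact reference over `‖x‖ < s` in the coordinates `y - z`,
small in scaled norms, without average up to `s ^ (m+1) h ^ b`, of height `≤ h ^ b`.
`at_resc`: the data at a larger scale `r` give `At` at the scale `s` if `r / s ≤ h ^ (-c₅)`.
-/

open Set Filter Topology MeasureTheory Metric Matrix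
open scoped RealInnerProductSpace ENNReal ContDiff

set_option linter.all false

namespace Vale.Agent.P214.BTWO

open WIN STR

noncomputable section

variable {m n Q : ℕ} {E : Type*} [NormedAddCommGroup E] [InnerProductSpace ℝ E]
  [FiniteDimensional ℝ E] [MeasurableSpace E] [BorelSpace E] {T : Submodule ℝ E}

/-- one reference at the centre `z` and at the scale `s` -/
structure At (m n Q : ℕ) {T : Submodule ℝ E} (F : Frame m n T) (ν : Measure E) (z : E)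
    (ε s h b : ℝ) (u : Fin n → REF.E m → ℝ) : Prop where
  smooth : ∀ a, ContDiff ℝ ∞ (u a)
  val : ∀ a, |u a 0| ≤ ε * s
  small : ∀ a, ∀ k, 1 ≤ k → k ≤ sW m → ∀ x, ‖iteratedFDeriv ℝ k (u a) x‖ ≤ ε * (s * s⁻¹ ^ k)
  exact : ∀ a x, ‖x‖ < s → REF.Mop u a x = 0
  weak : ∀ (φ : Fin n → REF.E m → ℝ) (M : ℝ), TstR (sW m) s s M φ →
    |∫ y, ∑ a, φ a (F.xc (y - z)) * F.ht u a (y - z) ∂ν| ≤ s ^ (m + 1) * h ^ b * M
  l2 : ∫ y in {y | ‖F.xc (y - z)‖ < s}, ‖KMS.rel T (F.lift u) (y - z)‖ ^ 2 ∂ν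
    ≤ s ^ (m + 2) * h ^ b
  slab : ∀ᵐ y ∂ν, ‖F.xc (y - z)‖ < s → ‖KMS.rel T (F.lift u) (y - z)‖ ≤ ε * s
  /-- mass against the area of some smooth function `u₀` (e.g. of the old reference) -/
  mass : ∃ u₀ : Fin n → REF.E m → ℝ, (∀ a, ContDiff ℝ ∞ (u₀ a)) ∧
    ∀ (ψ : REF.E m → ℝ) (M : ℝ), Continuous ψ → (∀ x, s ≤ ‖x‖ → ψ x = 0) →
    (∀ x, |ψ x| ≤ M) →
    |∫ y, ψ (F.xc (y - z)) ∂ν - Q * ∫ x, ψ x * √(REF.gm u₀ x).det ∂(μH[m] : Measure (REF.E m))|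
      ≤ s ^ m * h ^ (b / 2) * M

omit [InnerProductSpace ℝ E] [FiniteDimensional ℝ E] [MeasurableSpace E] [BorelSpace E] in
/-- a test function at scale `s` is a test function at the larger scale `r` -/
lemma tstR_resc {K : ℕ} {s r ρ ρ' M : ℝ} {φ : Fin n → REF.E m → ℝ} (hφ : TstR K s ρ M φ)
    (hn : 0 < n) (hs : 0 < s) (hsr : s ≤ r) (hρ : ρ ≤ ρ') :
    TstR K r ρ' (M * (r / s) ^ K) φ := by
  have hM : 0 ≤ M := by
    have h1 := hφ.bd ⟨0, hn⟩ 0 (Nat.zero_le _) 0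
    rw [pow_zero, mul_one] at h1
    exact (norm_nonneg _).trans h1
  refine ⟨hφ.smooth, fun a x hx => hφ.supp a x (hρ.trans hx), fun a k hk x => ?_⟩
  have hr : 0 < r := hs.trans_le hsr
  have h1 : (1:ℝ) ≤ r / s := by rwa [one_le_div₀ hs]
  have h2 : s⁻¹ ^ k = (r / s) ^ k * r⁻¹ ^ k := by
    rw [← mul_pow]; congr 1; field_simp
  calc ‖iteratedFDeriv ℝ k (φ a) x‖ ≤ M * s⁻¹ ^ k := hφ.bd a k hk x
    _ = M * ((r / s) ^ k * r⁻¹ ^ k) := by rw [h2]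
    _ ≤ M * ((r / s) ^ K * r⁻¹ ^ k) := by
        have := pow_le_pow_right₀ h1 hk
        gcongr
    _ = M * (r / s) ^ K * r⁻¹ ^ k := by ring

/-- scaled norms at a smaller scale -/
lemma scaled_mono {s r : ℝ} (hs : 0 < s) (hsr : s ≤ r) {k : ℕ} (hk : 1 ≤ k) :
    r * r⁻¹ ^ k ≤ s * s⁻¹ ^ k := by
  obtain ⟨j, rfl⟩ : ∃ j, k = j + 1 := ⟨k - 1, by omega⟩
  have hr : 0 < r := hs.trans_le hsr
  have h1 : r * r⁻¹ ^ (j + 1) = r⁻¹ ^ j := by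
    rw [pow_succ]; field_simp
  have h2 : s * s⁻¹ ^ (j + 1) = s⁻¹ ^ j := by
    rw [pow_succ]; field_simp
  rw [h1, h2]
  gcongr

/-- powers of the ratio of scales against powers of the height -/
lemma ratio_pow_le {s r h c₅ b₀ b : ℝ} {p q : ℕ} (hs : 0 < s) (hsr : s ≤ r) (h0 : 0 < h)
    (h1 : h ≤ 1) (hr : r * h ^ c₅ ≤ s) (hb : b + q * c₅ ≤ b₀) (hpq : p ≤ q) :
    (r / s) ^ p * h ^ b₀ ≤ h ^ b := by
  have hr0 : 0 < r := hs.trans_le hsr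
  have e1 : (1:ℝ) ≤ r / s := by rwa [one_le_div₀ hs]
  have hc : 0 < h ^ c₅ := Real.rpow_pos_of_pos h0 _
  have e2 : r / s ≤ (h ^ c₅)⁻¹ := by
    rw [div_le_iff₀ hs, ← div_eq_inv_mul, le_div_iff₀ hc]
    exact hr
  have e3 : (r / s) ^ p ≤ ((h ^ c₅)⁻¹) ^ q :=
    (pow_le_pow_right₀ e1 hpq).trans (pow_le_pow_left₀ (by positivity) e2 q)
  have e4 : ((h ^ c₅)⁻¹) ^ q = h ^ (-(q * c₅)) := by
    rw [← Real.rpow_neg h0.le, ← Real.rpow_natCast (h ^ (-c₅)) q, ← Real.rpow_mul h0.le]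
    congr 1; ring
  calc (r / s) ^ p * h ^ b₀ ≤ h ^ (-(q * c₅)) * h ^ b₀ := by
        rw [← e4]
        exact mul_le_mul_of_nonneg_right e3 (Real.rpow_nonneg h0.le _)
    _ = h ^ (b₀ - q * c₅) := by rw [← Real.rpow_add h0]; congr 1; ring
    _ ≤ h ^ b := Real.rpow_le_rpow_of_exponent_ge h0 h1 (by linarith)

/-- **rescaling**: from the scale `r` (weak bounds on `‖x‖ < ρ`) to a smaller scale `s ≤ ρ` -/
theorem at_resc (F : Frame m n T) {ν : Measure E} {z : E} {ε r ρ s h b₀ b c₅ : ℝ}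
    {u : Fin n → REF.E m → ℝ} (hn : 0 < n) (hs : 0 < s) (hsρ : s ≤ ρ) (hρr : ρ ≤ r) (h0 : 0 < h)
    (h1 : h ≤ 1) (hc₅ : 0 ≤ c₅) (hr : r * h ^ c₅ ≤ s) (hb : b + 2 * (m + 2 + sW m) * c₅ ≤ b₀)
    (hε : 0 ≤ ε) (smooth : ∀ a, ContDiff ℝ ∞ (u a)) (val : ∀ a, |u a 0| ≤ ε * s)
    (small : ∀ a, ∀ k, 1 ≤ k → k ≤ sW m → ∀ x,
      ‖iteratedFDeriv ℝ k (u a) x‖ ≤ ε * (r * r⁻¹ ^ k))
    (exact : ∀ a x, ‖x‖ < ρ → REF.Mop u a x = 0)
    (weak : ∀ (φ : Fin n → REF.E m → ℝ) (M : ℝ), TstR (sW m) r ρ M φ →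
      |∫ y, ∑ a, φ a (F.xc (y - z)) * F.ht u a (y - z) ∂ν| ≤ r ^ (m + 1) * h ^ b₀ * M)
    (l2i : IntegrableOn (fun y => ‖KMS.rel T (F.lift u) (y - z)‖ ^ 2)
      {y | ‖F.xc (y - z)‖ < ρ} ν)
    (l2 : ∫ y in {y | ‖F.xc (y - z)‖ < ρ}, ‖KMS.rel T (F.lift u) (y - z)‖ ^ 2 ∂ν
      ≤ r ^ (m + 2) * h ^ b₀)
    (slab : ∀ᵐ y ∂ν, ‖F.xc (y - z)‖ < s → ‖KMS.rel T (F.lift u) (y - z)‖ ≤ ε * s)
    {u₀ : Fin n → REF.E m → ℝ} (smooth₀ : ∀ a, ContDiff ℝ ∞ (u₀ a))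
    (mass : ∀ (ψ : REF.E m → ℝ) (M : ℝ), Continuous ψ → (∀ x, ρ ≤ ‖x‖ → ψ x = 0) →
      (∀ x, |ψ x| ≤ M) →
      |∫ y, ψ (F.xc (y - z)) ∂ν - Q * ∫ x, ψ x * √(REF.gm u₀ x).det ∂(μH[m] : Measure (REF.E m))|
        ≤ r ^ m * h ^ (b₀ / 2) * M) :
    At m n Q F ν z ε s h b u := by
  have hsr : s ≤ r := hsρ.trans hρr
  have hr0 : 0 < r := hs.trans_le hsr
  refine ⟨smooth, val, fun a k hk1 hk x => (small a k hk1 hk x).trans
    (mul_le_mul_of_nonneg_left (scaled_mono hs hsr hk1) hε),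
    fun a x hx => exact a x (hx.trans_le hsρ), fun φ M hφ => ?_, ?_, slab,
    u₀, smooth₀, fun ψ M hψ hψ0 hψM => ?_⟩
  · have hM : 0 ≤ M := by
      have h1 := hφ.bd ⟨0, hn⟩ 0 (Nat.zero_le _) 0
      rw [pow_zero, mul_one] at h1
      exact (norm_nonneg _).trans h1
    refine (weak φ _ (tstR_resc hφ hn hs hsr hsρ)).trans ?_
    have e1 := ratio_pow_le (p := m + 1 + sW m) (q := 2 * (m + 2 + sW m)) (b := b) (b₀ := b₀) hs hsr
      h0 h1 hr (by push_cast; linarith) (by omega)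
    have e2 : r ^ (m + 1) = (r / s) ^ (m + 1) * s ^ (m + 1) := by
      rw [← mul_pow]; congr 1; field_simp
    calc r ^ (m + 1) * h ^ b₀ * (M * (r / s) ^ sW m)
        = s ^ (m + 1) * ((r / s) ^ (m + 1 + sW m) * h ^ b₀) * M := by
          rw [e2, pow_add]; ring
      _ ≤ s ^ (m + 1) * h ^ b * M := by gcongr
  · refine (setIntegral_mono_set l2i (Eventually.of_forall fun y => by positivity)
      (Eventually.of_forall fun y hy => lt_of_lt_of_le hy hsρ)).trans (l2.trans ?_)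
    have e1 := ratio_pow_le (p := m + 2) (q := 2 * (m + 2 + sW m)) (b := b) (b₀ := b₀) hs hsr
      h0 h1 hr (by push_cast; linarith) (by omega)
    have e2 : r ^ (m + 2) = (r / s) ^ (m + 2) * s ^ (m + 2) := by
      rw [← mul_pow]; congr 1; field_simp
    calc r ^ (m + 2) * h ^ b₀ = s ^ (m + 2) * ((r / s) ^ (m + 2) * h ^ b₀) := by rw [e2]; ring
      _ ≤ s ^ (m + 2) * h ^ b := by gcongr
  · have hM : 0 ≤ M := (abs_nonneg _).trans (hψM 0)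
    refine (mass ψ M hψ (fun x hx => hψ0 x (hsρ.trans hx)) hψM).trans ?_
    have e1 := ratio_pow_le (p := m) (q := m + 2 + sW m) (b := b / 2) (b₀ := b₀ / 2) hs hsr
      h0 h1 hr (by push_cast; linarith) (by omega)
    have e2 : r ^ m = (r / s) ^ m * s ^ m := by
      rw [← mul_pow]; congr 1; field_simp
    calc r ^ m * h ^ (b₀ / 2) * M = s ^ m * ((r / s) ^ m * h ^ (b₀ / 2)) * M := by rw [e2]; ring
      _ ≤ s ^ m * h ^ (b / 2) * M := by gcongr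

end

end Vale.Agent.P214.BTWO
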