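import Vale.Agent.P214.BDIM.Props
import Vale.Agent.P214.BW2.OfRG

/-!
# P214, target B, [TW1] (helper697): one measure for two centres

`loc_pair`: near the two centres `0` and `c`, the restriction of `ν` to a ball sees both charts.
-/

open Set Filter Topology MeasureTheory Metric
open scoped RealInnerProductSpace ENNReal ContDiff

set_option linter.all false

namespace Vale.Agent.P214.BTWO

open WIN STR

noncomputable section

variable {m n Q : ℕ} {E : Type*} [NormedAddCommGroup E] [InnerProductSpace ℝ E]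
  [FiniteDimensional ℝ E] [MeasurableSpace E] [BorelSpace E] {T T' : Submodule ℝ E}

/-- the measure `ν₁` seen from `z₁` and the measure `ν₀` seen from `z₀` agree on the cylinder of
radius `s` -/
structure Xfer (F : Frame m n T) (ν₀ : Measure E) (z₀ : E) (ν₁ : Measure E) (z₁ : E)
    (s : ℝ) : Prop where
  int : ∀ g : E → ℝ, (∀ y, s ≤ ‖F.xc y‖ → g y = 0) →
    ∫ y, g (y - z₁) ∂ν₁ = ∫ y, g (y - z₀) ∂ν₀
  ae : ∀ p : E → Prop, (∀ᵐ y ∂ν₀, p (y - z₀)) → ∀ᵐ y ∂ν₁, p (y - z₁)

lemma measurableSet_xc (F : Frame m n T) (z : E) (t : ℝ) :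
    MeasurableSet {y | ‖F.xc (y - z)‖ < t} :=
  (isOpen_lt (F.continuous_xc.comp (continuous_id.sub continuous_const)).norm
    continuous_const).measurableSet

/-- integrals over the cylinder -/
lemma Xfer.set {F : Frame m n T} {ν₀ ν₁ : Measure E} {z₀ z₁ : E} {s t : ℝ}
    (H : Xfer F ν₀ z₀ ν₁ z₁ s) (ht : t ≤ s) (f : E → ℝ) :
    ∫ y in {y | ‖F.xc (y - z₁)‖ < t}, f (y - z₁) ∂ν₁
      = ∫ y in {y | ‖F.xc (y - z₀)‖ < t}, f (y - z₀) ∂ν₀ := by
  have key : ∀ (ν : Measure E) (z : E), ∫ y in {y | ‖F.xc (y - z)‖ < t}, f (y - z) ∂ν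
      = ∫ y, (indicator {y | ‖F.xc y‖ < t} f) (y - z) ∂ν := by
    intro ν z
    rw [← integral_indicator (measurableSet_xc F z t)]
    rfl
  rw [key, key]
  refine H.int _ fun y hy => ?_
  rw [indicator_of_notMem]
  intro h
  have : ‖F.xc y‖ < t := h
  linarith

/-- **`At` depends only on the measure in the cylinder** -/
lemma Xfer.at_ {F : Frame m n T} {ν₀ ν₁ : Measure E} {z₀ z₁ : E} {s ε h b : ℝ}
    {u : Fin n → REF.E m → ℝ} (H : Xfer F ν₀ z₀ ν₁ z₁ s) (hA : At m n Q F ν₀ z₀ ε s h b u) :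
    At m n Q F ν₁ z₁ ε s h b u := by
  obtain ⟨u₀, hu₀, hm⟩ := hA.mass
  refine ⟨hA.smooth, hA.val, hA.small, hA.exact, fun φ M hφ => ?_, ?_, ?_, u₀, hu₀,
    fun ψ M h1 h2 h3 => ?_⟩
  · have e := H.int (fun y => ∑ a, φ a (F.xc y) * F.ht u a y) (fun y hy =>
      Finset.sum_eq_zero fun a _ => by rw [hφ.supp a _ hy, zero_mul])
    rw [e]
    exact hA.weak φ M hφ
  · rw [H.set le_rfl (fun y => ‖KMS.rel T (F.lift u) y‖ ^ 2)]
    exact hA.l2
  · exact H.ae (fun y => ‖F.xc y‖ < s → ‖KMS.rel T (F.lift u) y‖ ≤ ε * s) hA.slab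
  · have e := H.int (fun y => ψ (F.xc y)) (fun y hy => h2 _ hy)
    rw [e]
    exact hm ψ M h1 h2 h3

lemma cylSet_eq (F : Frame m n T) (t : ℝ) :
    Skel.cylSet T 0 t = {y | ‖F.xc (y - 0)‖ < t} := by
  ext y
  simp only [Skel.cylSet, mem_setOf_eq, mem_ball_zero_iff, sub_zero, F.norm_xc]

lemma hN_eq (F : Frame m n T) (w : E → E) (ν : Measure E) (t : ℝ) :
    hN m T w ν t = (t ^ (m + 2))⁻¹ * ∫ y in {y | ‖F.xc (y - 0)‖ < t},
      ‖KMS.rel T w (y - 0)‖ ^ 2 ∂ν := by
  unfold hN hE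
  rw [cylSet_eq F t]
  simp only [sub_zero]

/-- the points of the cylinder of radius `s` which carry the measure are near the centre -/
lemma At.norm_lt {F : Frame m n T} {ν : Measure E} {z : E} {ε s h b : ℝ}
    {u : Fin n → REF.E m → ℝ} (hA : At m n Q F ν z ε s h b u) (hs : 0 < s) (hε : 0 ≤ ε)
    (hε1 : 8 * (n + 1) * ε ≤ 1) : ∀ᵐ y ∂ν, ‖F.xc (y - z)‖ < s → ‖y - z‖ < 2 * s := by
  have hn : (0:ℝ) ≤ n := Nat.cast_nonneg n
  have hnε : n * ε + ε ≤ 1 / 8 := by nlinarith
  have hsm : ∀ a x, ‖iteratedFDeriv ℝ 1 (u a) x‖ ≤ ε * (s * s⁻¹ ^ 1) := fun a x =>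
    hA.small a 1 le_rfl (by unfold sW; omega) x
  filter_upwards [hA.slab] with y hy hys
  have h2 := hy hys
  have h3 := BW2.lift_val_le F hs hA.smooth hA.val hsm (y - z)
  have e1 : y - z = T.starProjection (y - z)
      + (KMS.rel T (F.lift u) (y - z) + F.lift u (y - z)) := by
    unfold KMS.rel
    rw [FV.co_apply]; abel
  have e2 : ‖y - z‖ ≤ ‖T.starProjection (y - z)‖
      + (‖KMS.rel T (F.lift u) (y - z)‖ + ‖F.lift u (y - z)‖) := by
    conv_lhs => rw [e1]
    exact (norm_add_le _ _).trans (add_le_add le_rfl (norm_add_le _ _))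
  rw [← F.norm_xc] at e2
  have h4 : n * ε * (s + ‖F.xc (y - z)‖) ≤ n * ε * (2 * s) := by
    have : 0 ≤ n * ε := mul_nonneg hn hε
    gcongr
    linarith
  have h5 : (n * ε + ε) * s ≤ 1 / 8 * s := by gcongr
  nlinarith

/-- restriction to a ball which contains the relevant part of the cylinder -/
lemma xfer_restrict (F : Frame m n T) {ν : Measure E} {s ρ : ℝ} {c : E}
    (h : ∀ᵐ y ∂ν, ‖F.xc (y - 0)‖ < s → y ∈ ball c ρ) :
    Xfer F ν 0 (ν.restrict (ball c ρ)) 0 s := by
  refine ⟨fun g hg => ?_, fun p hp => ae_restrict_of_ae hp⟩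
  rw [← integral_indicator measurableSet_ball]
  refine integral_congr_ae ?_
  filter_upwards [h] with y hy
  by_cases h1 : y ∈ ball c ρ
  · rw [indicator_of_mem h1]
  · rw [indicator_of_notMem h1, hg]
    by_contra h2
    exact h1 (hy (not_le.1 h2))

lemma measurableEmbedding_sub (c : E) : MeasurableEmbedding fun y : E => y - c :=
  (Homeomorph.subRight c).measurableEmbedding

lemma measurableEmbedding_add (c : E) : MeasurableEmbedding fun y : E => y + c :=
  (Homeomorph.addRight c).measurableEmbedding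

/-- the restriction of `ν` to the ball around `c` in terms of `ν'` -/
lemma nb_eq {ν ν' : Measure E} {P P' : E → E →L[ℝ] E} {c : E} {ρ : ℝ}
    (H : BDIM.Nb ν P ν' P' c ρ) :
    ν.restrict (ball c ρ) = (ν'.map fun y => y + c).restrict (ball c ρ) := by
  have hpre : (fun y : E => y + c) ⁻¹' (ball c ρ) = ball 0 ρ := by
    ext y; simp [dist_eq_norm]
  have hpre' : (fun y : E => y - c) ⁻¹' (ball 0 ρ) = ball c ρ := by
    ext y; simp [dist_eq_norm]
  have h1 : (ν'.map fun y => y + c).restrict (ball c ρ)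
      = (ν'.restrict (ball 0 ρ)).map fun y => y + c := by
    rw [Measure.restrict_map (measurableEmbedding_add c).measurable measurableSet_ball, hpre]
  have h2 : ((ν.map fun y => y - c).restrict (ball 0 ρ)).map (fun y => y + c)
      = ν.restrict (ball c ρ) := by
    rw [Measure.restrict_map (measurableEmbedding_sub c).measurable measurableSet_ball, hpre',
      Measure.map_map (measurableEmbedding_add c).measurable
        (measurableEmbedding_sub c).measurable]
    have : ((fun y : E => y + c) ∘ fun y : E => y - c) = id := by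
      funext y; simp
    rw [this, Measure.map_id]
  rw [h1, ← H.meas, h2]

/-- the chart at the second centre -/
lemma xfer_nb (F' : Frame m n T') {ν ν' : Measure E} {P P' : E → E →L[ℝ] E} {c : E} {s ρ : ℝ}
    (H : BDIM.Nb ν P ν' P' c ρ) (h : ∀ᵐ y ∂ν', ‖F'.xc (y - 0)‖ < s → y ∈ ball (0:E) ρ) :
    Xfer F' ν' 0 (ν.restrict (ball c ρ)) c s := by
  have hpre' : (fun y : E => y - c) ⁻¹' (ball 0 ρ) = ball c ρ := by
    ext y; simp [dist_eq_norm]
  have hmap : (ν.restrict (ball c ρ)).map (fun y => y - c) = ν'.restrict (ball 0 ρ) := by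
    rw [← H.meas, Measure.restrict_map (measurableEmbedding_sub c).measurable measurableSet_ball,
      hpre']
  constructor
  · intro g hg
    have h1 : ∫ y, g (y - c) ∂(ν.restrict (ball c ρ))
        = ∫ y, g y ∂((ν.restrict (ball c ρ)).map fun y => y - c) :=
      ((measurableEmbedding_sub c).integral_map g).symm
    rw [h1, hmap, ← integral_indicator measurableSet_ball]
    refine integral_congr_ae ?_
    filter_upwards [h] with y hy
    rw [sub_zero] at hy ⊢
    by_cases h1 : y ∈ ball (0:E) ρ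
    · rw [indicator_of_mem h1]
    · rw [indicator_of_notMem h1, hg]
      by_contra h2
      exact h1 (hy (not_le.1 h2))
  · intro p hp
    have h1 : ∀ᵐ y ∂((ν.restrict (ball c ρ)).map fun y => y - c), p y := by
      rw [hmap]
      refine ae_restrict_of_ae ?_
      simpa only [sub_zero] using hp
    exact (measurableEmbedding_sub c).ae_map_iff.1 h1

/-- **[TW1]**: one finite measure on which both charts are at hand -/
theorem loc_pair {F : Frame m n T} {F' : Frame m n T'} {ν ν' : Measure E}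
    {P P' : E → E →L[ℝ] E} {c : E} {u u' : Fin n → REF.E m → ℝ} {s η h h' b b' : ℝ}
    [IsFiniteMeasure ν] (hs : 0 < s) (hs1 : s ≤ 1 / 64) (hη : 0 ≤ η) (hη1 : 8 * (n + 1) * η ≤ 1)
    (hc : ‖c‖ ≤ s / 64) (H : BDIM.Nb ν P ν' P' c (3 / 16))
    (hA : At m n Q F ν 0 η s h b u) (hA' : At m n Q F' ν' 0 η s h' b' u') :
    IsFiniteMeasure (ν.restrict (ball c (3 / 16))) ∧
    At m n Q F (ν.restrict (ball c (3 / 16))) 0 η s h b u ∧
    At m n Q F' (ν.restrict (ball c (3 / 16))) c η s h' b' u' ∧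
    (∀ t, t ≤ s → hN m T (F.lift u) (ν.restrict (ball c (3 / 16))) t
      = hN m T (F.lift u) ν t) ∧
    (∀ t, t ≤ s → (t ^ (m + 2))⁻¹ * ∫ y in {y | ‖F'.xc (y - c)‖ < t},
      ‖KMS.rel T' (F'.lift u') (y - c)‖ ^ 2 ∂(ν.restrict (ball c (3 / 16)))
      = hN m T' (F'.lift u') ν' t) := by
  have h1 : ∀ᵐ y ∂ν, ‖F.xc (y - 0)‖ < s → y ∈ ball c (3 / 16) := by
    filter_upwards [hA.norm_lt hs hη hη1] with y hy hys
    have h2 := hy hys
    rw [sub_zero] at h2
    rw [mem_ball_iff_norm]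
    have := norm_sub_le y c
    linarith
  have h1' : ∀ᵐ y ∂ν', ‖F'.xc (y - 0)‖ < s → y ∈ ball (0:E) (3 / 16) := by
    filter_upwards [hA'.norm_lt hs hη hη1] with y hy hys
    have h2 := hy hys
    rw [sub_zero] at h2
    rw [mem_ball_zero_iff]
    linarith
  have X := xfer_restrict F h1
  have X' := xfer_nb F' H h1'
  refine ⟨inferInstance, X.at_ hA, X'.at_ hA', fun t ht => ?_, fun t ht => ?_⟩
  · rw [hN_eq F, hN_eq F]
    congr 1
    exact X.set ht (fun y => ‖KMS.rel T (F.lift u) y‖ ^ 2)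
  · rw [hN_eq F']
    congr 1
    exact X'.set ht (fun y => ‖KMS.rel T' (F'.lift u') y‖ ^ 2)

end

end Vale.Agent.P214.BTWO
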