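import Vale.Agent.P214.BLOC.Loc

/-!
# P214, target B, block [B4-TWO]: the mass of the cylinders at a point with power decay
-/

open Set Filter Topology MeasureTheory Metric
open scoped RealInnerProductSpace ENNReal ContDiff

set_option linter.all false

namespace Vale.Agent.P214.BTWO

open WIN STR

variable {m n Q : ℕ} {E : Type*} [NormedAddCommGroup E] [InnerProductSpace ℝ E]
  [FiniteDimensional ℝ E] [MeasurableSpace E] [BorelSpace E] {T : Submodule ℝ E}
  {ν : Measure E} {P : E → E →L[ℝ] E} {β τ r : ℝ}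

/-- mass of a cylinder -/
lemma locB_mass (hL : BLOC.LocB m Q T ν P β τ) (hβ : 0 ≤ β) (hτ : 0 ≤ τ) (hr : 0 < r)
    (hr' : r ≤ 3 / 8) : ν.real (Skel.cylSet T 0 r) ≤ (Q * Skel.om m + τ) * r ^ m := by
  have h1 := (abs_le.1 (hL.int r hr hr').mass).2
  have h2 : r ^ β ≤ 1 := Real.rpow_le_one hr.le (by linarith) hβ
  have h3 : τ * r ^ β ≤ τ := by nlinarith
  have h4 : 0 < r ^ m := by positivity
  have h5 : τ * r ^ β * r ^ m ≤ τ * r ^ m := by gcongr
  linarith

/-- mass of a cylinder, in coordinates -/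
lemma locB_mass_xc (F : Frame m n T) (hL : BLOC.LocB m Q T ν P β τ) (hβ : 0 ≤ β) (hτ : 0 ≤ τ)
    (hr : 0 < r) (hr' : r ≤ 3 / 8) :
    ν.real {y | ‖F.xc y‖ < r} ≤ (Q * Skel.om m + τ) * r ^ m := by
  have h1 : {y : E | ‖F.xc y‖ < r} = Skel.cylSet T 0 r := by
    ext y
    simp only [mem_setOf_eq, STR.norm_xc, Skel.cylSet, mem_ball_zero_iff]
  rw [h1]
  exact locB_mass hL hβ hτ hr hr'

end Vale.Agent.P214.BTWO
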