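import Vale.Agent.P214.STR.Scale

/-!
# P214, target B, block [B4-TWO]: comparison of the heights over two planes

* `height_le`, `height_ge`: if the heights over `T` (centre `z₀`, reference `ut`) and over `T'`
  (centre `z`, reference `u'`) are comparable, and `ut` is `η`-close to `u`, then the `L²` heights
  of `u` and of `u'` over comparable cylinders are comparable up to `η²`.
* `incl`: the inclusion of the cylinders, for measures in a slab.
* `relsq_int`: integrability of the squared height, for measures in a slab.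
* `heights_le`: all of it, with the centre of `T` at `0`.
-/

open Set Filter Topology MeasureTheory Metric Matrix
open scoped RealInnerProductSpace ENNReal ContDiff

set_option linter.all false

namespace Vale.Agent.P214.BTWO

open WIN STR

noncomputable section

variable {m n : ℕ} {E : Type*} [NormedAddCommGroup E] [InnerProductSpace ℝ E]
  [FiniteDimensional ℝ E] {T T' : Submodule ℝ E}

/-- the distance of two lifts -/
lemma norm_lift_sub_sq (F : Frame m n T) (u v : Fin n → REF.E m → ℝ) (y : E) :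
    ‖F.lift u y - F.lift v y‖ ^ 2 = ∑ a, (u a (F.xc y) - v a (F.xc y)) ^ 2 := by
  have h1 : F.lift u y - F.lift v y
      = ((∑ a, (u a (F.xc y) - v a (F.xc y)) • F.bN a : Tᗮ) : E) := by
    unfold Frame.lift
    rw [← Finset.sum_sub_distrib, Submodule.coe_sum]
    refine Finset.sum_congr rfl fun a _ => ?_
    rw [Submodule.coe_smul, sub_smul]
  rw [h1, ← Submodule.coe_norm, ← real_inner_self_eq_norm_sq]
  have h2 := F.bN.orthonormal.inner_sum (fun a => u a (F.xc y) - v a (F.xc y))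
    (fun a => u a (F.xc y) - v a (F.xc y)) Finset.univ
  rw [h2]
  refine Finset.sum_congr rfl fun a _ => ?_
  simp [sq]

lemma norm_lift_sub_sq_le (F : Frame m n T) {u v : Fin n → REF.E m → ℝ} {y : E} {η : ℝ}
    (h : ∀ a, |u a (F.xc y) - v a (F.xc y)| ≤ η) :
    ‖F.lift u y - F.lift v y‖ ^ 2 ≤ n * η ^ 2 := by
  rw [norm_lift_sub_sq]
  calc ∑ a, (u a (F.xc y) - v a (F.xc y)) ^ 2 ≤ ∑ _a : Fin n, η ^ 2 :=
        Finset.sum_le_sum fun a _ => by
          rw [← sq_abs]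
          exact pow_le_pow_left₀ (abs_nonneg _) (h a) 2
    _ = n * η ^ 2 := by simp

/-- the relative heights over the same plane differ by the distance of the references -/
lemma rel_sq_le (F : Frame m n T) {u v : Fin n → REF.E m → ℝ} {y : E} {η : ℝ}
    (h : ∀ a, |u a (F.xc y) - v a (F.xc y)| ≤ η) :
    ‖KMS.rel T (F.lift u) y‖ ^ 2 ≤ 2 * ‖KMS.rel T (F.lift v) y‖ ^ 2 + 2 * (n * η ^ 2) := by
  have h1 : KMS.rel T (F.lift u) y = KMS.rel T (F.lift v) y - (F.lift u y - F.lift v y) := by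
    unfold KMS.rel; abel
  have h2 := norm_lift_sub_sq_le F h
  have h3 : ‖KMS.rel T (F.lift u) y‖
      ≤ ‖KMS.rel T (F.lift v) y‖ + ‖F.lift u y - F.lift v y‖ := by
    rw [h1]; exact norm_sub_le _ _
  have h4 := norm_nonneg (KMS.rel T (F.lift u) y)
  nlinarith [sq_nonneg (‖KMS.rel T (F.lift v) y‖ - ‖F.lift u y - F.lift v y‖)]

variable [MeasurableSpace E] [BorelSpace E]

lemma continuous_lift (F : Frame m n T) {u : Fin n → REF.E m → ℝ}
    (hu : ∀ a, Continuous (u a)) : Continuous (F.lift u) := by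
  unfold Frame.lift
  exact continuous_finsetSum _ fun a _ => ((hu a).comp (continuous_xc F)).smul continuous_const

lemma continuous_rel (F : Frame m n T) {u : Fin n → REF.E m → ℝ}
    (hu : ∀ a, Continuous (u a)) : Continuous (KMS.rel T (F.lift u)) := by
  unfold KMS.rel
  exact (FV.co T).continuous.sub (continuous_lift F hu)

/-- integrability of the squared height, for measures in a slab -/
lemma relsq_int (F : Frame m n T) {ν : Measure E} [IsFiniteMeasure ν] {z : E} {s c : ℝ}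
    {u : Fin n → REF.E m → ℝ} (hu : ∀ a, Continuous (u a))
    (hsl : ∀ᵐ y ∂ν, ‖F.xc (y - z)‖ < s → ‖KMS.rel T (F.lift u) (y - z)‖ ≤ c) :
    IntegrableOn (fun y => ‖KMS.rel T (F.lift u) (y - z)‖ ^ 2) {y | ‖F.xc (y - z)‖ < s} ν := by
  have hc : Continuous fun y : E => ‖KMS.rel T (F.lift u) (y - z)‖ ^ 2 :=
    (((continuous_rel F hu).comp (continuous_id.sub continuous_const)).norm).pow 2
  have hS : MeasurableSet {y : E | ‖F.xc (y - z)‖ < s} :=
    (isOpen_lt (((continuous_xc F).comp (continuous_id.sub continuous_const)).norm)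
      continuous_const).measurableSet
  refine Integrable.mono' (g := fun _ => c ^ 2) (integrable_const _) hc.aestronglyMeasurable ?_
  rw [ae_restrict_iff' hS]
  filter_upwards [hsl] with y hy hys
  rw [Real.norm_eq_abs, abs_of_nonneg (by positivity)]
  exact pow_le_pow_left₀ (norm_nonneg _) (hy hys) 2

/-- **from `T'` to `T`** -/
theorem height_le (F : Frame m n T) (F' : Frame m n T') {ν : Measure E} [IsFiniteMeasure ν]
    {z₀ z : E} {t S η : ℝ} {u ut u' : Fin n → REF.E m → ℝ}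
    (hcl : ∀ a x, ‖x‖ < S → |ut a x - u a x| ≤ η)
    (hle : ∀ Y, ‖F.xc (Y - z₀)‖ < S → ‖KMS.rel T' (F'.lift u') (Y - z)‖
      ≤ 2 * ‖KMS.rel T (F.lift ut) (Y - z₀)‖)
    (hin : ∀ᵐ y ∂ν, ‖F'.xc (y - z)‖ < t → ‖F.xc (y - z₀)‖ < S)
    (hi : IntegrableOn (fun y => ‖KMS.rel T (F.lift u) (y - z₀)‖ ^ 2)
      {y | ‖F.xc (y - z₀)‖ < S} ν) :
    ∫ y in {y | ‖F'.xc (y - z)‖ < t}, ‖KMS.rel T' (F'.lift u') (y - z)‖ ^ 2 ∂ν
      ≤ 8 * ∫ y in {y | ‖F.xc (y - z₀)‖ < S}, ‖KMS.rel T (F.lift u) (y - z₀)‖ ^ 2 ∂ν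
        + 8 * n * η ^ 2 * ν.real {y | ‖F.xc (y - z₀)‖ < S} := by
  have hS : MeasurableSet {y : E | ‖F.xc (y - z₀)‖ < S} :=
    (isOpen_lt (((continuous_xc F).comp (continuous_id.sub continuous_const)).norm)
      continuous_const).measurableSet
  have hS' : MeasurableSet {y : E | ‖F'.xc (y - z)‖ < t} :=
    (isOpen_lt (((continuous_xc F').comp (continuous_id.sub continuous_const)).norm)
      continuous_const).measurableSet
  set G : E → ℝ := fun y => {y | ‖F.xc (y - z₀)‖ < S}.indicator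
    (fun y => 8 * ‖KMS.rel T (F.lift u) (y - z₀)‖ ^ 2 + 8 * n * η ^ 2) y with hG
  have hg0 : IntegrableOn (fun y => 8 * ‖KMS.rel T (F.lift u) (y - z₀)‖ ^ 2 + 8 * n * η ^ 2)
      {y | ‖F.xc (y - z₀)‖ < S} ν := (hi.const_mul 8).add (integrable_const _)
  have hGi : Integrable G ν := (integrable_indicator_iff hS).2 hg0
  have hG0 : ∀ y, 0 ≤ G y := fun y => indicator_nonneg (fun y _ => by positivity) y
  have hpt : ∀ᵐ y ∂(ν.restrict {y | ‖F'.xc (y - z)‖ < t}),
      ‖KMS.rel T' (F'.lift u') (y - z)‖ ^ 2 ≤ G y := by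
    rw [ae_restrict_iff' hS']
    filter_upwards [hin] with y hy hyt
    have h1 := hy hyt
    have h2 : G y = 8 * ‖KMS.rel T (F.lift u) (y - z₀)‖ ^ 2 + 8 * n * η ^ 2 := by
      rw [hG]; exact indicator_of_mem (show y ∈ {y | ‖F.xc (y - z₀)‖ < S} from h1) _
    rw [h2]
    have h3 := rel_sq_le F (u := ut) (v := u) (y := y - z₀) (η := η) fun a => hcl a _ h1
    have h4 := hle y h1
    have h5 := norm_nonneg (KMS.rel T' (F'.lift u') (y - z))
    have h6 : ‖KMS.rel T' (F'.lift u') (y - z)‖ ^ 2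
        ≤ (2 * ‖KMS.rel T (F.lift ut) (y - z₀)‖) ^ 2 := pow_le_pow_left₀ h5 h4 2
    nlinarith
  calc ∫ y in {y | ‖F'.xc (y - z)‖ < t}, ‖KMS.rel T' (F'.lift u') (y - z)‖ ^ 2 ∂ν
      ≤ ∫ y in {y | ‖F'.xc (y - z)‖ < t}, G y ∂ν :=
        integral_mono_of_nonneg (Eventually.of_forall fun y => by positivity)
          hGi.integrableOn hpt
    _ ≤ ∫ y, G y ∂ν := setIntegral_le_integral hGi (Eventually.of_forall hG0)
    _ = ∫ y in {y | ‖F.xc (y - z₀)‖ < S},
          (8 * ‖KMS.rel T (F.lift u) (y - z₀)‖ ^ 2 + 8 * n * η ^ 2) ∂ν :=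
        integral_indicator hS
    _ = _ := by
        rw [integral_add (hi.const_mul 8) (integrable_const _), integral_const_mul,
          integral_const, measureReal_restrict_apply MeasurableSet.univ, univ_inter, smul_eq_mul]
        ring

/-- **from `T` to `T'`** -/
theorem height_ge (F : Frame m n T) (F' : Frame m n T') {ν : Measure E} [IsFiniteMeasure ν]
    {z₀ z : E} {t S η : ℝ} {u ut u' : Fin n → REF.E m → ℝ}
    (hcl : ∀ a x, ‖x‖ < t → |ut a x - u a x| ≤ η)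
    (hle : ∀ Y, ‖F.xc (Y - z₀)‖ < t → ‖KMS.rel T (F.lift ut) (Y - z₀)‖
      ≤ 2 * ‖KMS.rel T' (F'.lift u') (Y - z)‖)
    (hin : ∀ᵐ y ∂ν, ‖F.xc (y - z₀)‖ < t → ‖F'.xc (y - z)‖ < S)
    (hi : IntegrableOn (fun y => ‖KMS.rel T' (F'.lift u') (y - z)‖ ^ 2)
      {y | ‖F'.xc (y - z)‖ < S} ν) :
    ∫ y in {y | ‖F.xc (y - z₀)‖ < t}, ‖KMS.rel T (F.lift u) (y - z₀)‖ ^ 2 ∂ν
      ≤ 8 * ∫ y in {y | ‖F'.xc (y - z)‖ < S}, ‖KMS.rel T' (F'.lift u') (y - z)‖ ^ 2 ∂ν
        + 2 * n * η ^ 2 * ν.real {y | ‖F'.xc (y - z)‖ < S} := by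
  have hS : MeasurableSet {y : E | ‖F.xc (y - z₀)‖ < t} :=
    (isOpen_lt (((continuous_xc F).comp (continuous_id.sub continuous_const)).norm)
      continuous_const).measurableSet
  have hS' : MeasurableSet {y : E | ‖F'.xc (y - z)‖ < S} :=
    (isOpen_lt (((continuous_xc F').comp (continuous_id.sub continuous_const)).norm)
      continuous_const).measurableSet
  set G : E → ℝ := fun y => {y | ‖F'.xc (y - z)‖ < S}.indicator
    (fun y => 8 * ‖KMS.rel T' (F'.lift u') (y - z)‖ ^ 2 + 2 * n * η ^ 2) y with hG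
  have hg0 : IntegrableOn (fun y => 8 * ‖KMS.rel T' (F'.lift u') (y - z)‖ ^ 2 + 2 * n * η ^ 2)
      {y | ‖F'.xc (y - z)‖ < S} ν := (hi.const_mul 8).add (integrable_const _)
  have hGi : Integrable G ν := (integrable_indicator_iff hS').2 hg0
  have hG0 : ∀ y, 0 ≤ G y := fun y => indicator_nonneg (fun y _ => by positivity) y
  have hpt : ∀ᵐ y ∂(ν.restrict {y | ‖F.xc (y - z₀)‖ < t}),
      ‖KMS.rel T (F.lift u) (y - z₀)‖ ^ 2 ≤ G y := by
    rw [ae_restrict_iff' hS]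
    filter_upwards [hin] with y hy hyt
    have h1 := hy hyt
    have h2 : G y = 8 * ‖KMS.rel T' (F'.lift u') (y - z)‖ ^ 2 + 2 * n * η ^ 2 := by
      rw [hG]; exact indicator_of_mem (show y ∈ {y | ‖F'.xc (y - z)‖ < S} from h1) _
    rw [h2]
    have h3 := rel_sq_le F (u := u) (v := ut) (y := y - z₀) (η := η) fun a => by
      rw [abs_sub_comm]; exact hcl a _ hyt
    have h4 := hle y hyt
    have h5 := norm_nonneg (KMS.rel T (F.lift ut) (y - z₀))
    have h6 : ‖KMS.rel T (F.lift ut) (y - z₀)‖ ^ 2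
        ≤ (2 * ‖KMS.rel T' (F'.lift u') (y - z)‖) ^ 2 := pow_le_pow_left₀ h5 h4 2
    nlinarith
  calc ∫ y in {y | ‖F.xc (y - z₀)‖ < t}, ‖KMS.rel T (F.lift u) (y - z₀)‖ ^ 2 ∂ν
      ≤ ∫ y in {y | ‖F.xc (y - z₀)‖ < t}, G y ∂ν :=
        integral_mono_of_nonneg (Eventually.of_forall fun y => by positivity)
          hGi.integrableOn hpt
    _ ≤ ∫ y, G y ∂ν := setIntegral_le_integral hGi (Eventually.of_forall hG0)
    _ = ∫ y in {y | ‖F'.xc (y - z)‖ < S},
          (8 * ‖KMS.rel T' (F'.lift u') (y - z)‖ ^ 2 + 2 * n * η ^ 2) ∂ν :=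
        integral_indicator hS'
    _ = _ := by
        rw [integral_add (hi.const_mul 8) (integrable_const _), integral_const_mul,
          integral_const, measureReal_restrict_apply MeasurableSet.univ, univ_inter, smul_eq_mul]
        ring

omit [MeasurableSpace E] [BorelSpace E] in
/-- the inclusion of the cylinders, pointwise -/
lemma incl_pt (F : Frame m n T) (F' : Frame m n T') {z₀ z y : E} {t : ℝ}
    {u' : Fin n → REF.E m → ℝ} (hz : ‖z - z₀‖ ≤ t)
    (hT : ‖T.starProjection - T'.starProjection‖ ≤ 1 / 8) (h1 : ‖F'.xc (y - z)‖ < t)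
    (h2 : ‖KMS.rel T' (F'.lift u') (y - z)‖ ≤ t / 8) (h3 : ‖F'.lift u' (y - z)‖ ≤ t / 8) :
    ‖F.xc (y - z₀)‖ < 3 * t := by
  have ht : 0 < t := (norm_nonneg _).trans_lt h1
  rw [STR.norm_xc] at h1 ⊢
  have e1 : ‖y - z‖ ≤ 5 / 4 * t := by
    have e2 : y - z = T'.starProjection (y - z) + (KMS.rel T' (F'.lift u') (y - z)
        + F'.lift u' (y - z)) := by
      unfold KMS.rel
      rw [sub_add_cancel, FV.co_apply]
      abel
    have e3 : ‖y - z‖ ≤ ‖T'.starProjection (y - z)‖ + (‖KMS.rel T' (F'.lift u') (y - z)‖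
        + ‖F'.lift u' (y - z)‖) := by
      conv_lhs => rw [e2]
      exact (norm_add_le _ _).trans (by gcongr; exact norm_add_le _ _)
    linarith
  have e4 : T.starProjection (y - z₀) = T'.starProjection (y - z)
      + ((T.starProjection - T'.starProjection) (y - z) + T.starProjection (z - z₀)) := by
    rw [_root_.sub_apply]
    have : y - z₀ = (y - z) + (z - z₀) := by abel
    rw [this, map_add]
    abel
  rw [e4]
  have e5 : ‖(T.starProjection - T'.starProjection) (y - z)‖ ≤ 1 / 8 * (5 / 4 * t) :=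
    (ContinuousLinearMap.le_opNorm _ _).trans (by gcongr)
  have e6 : ‖T.starProjection (z - z₀)‖ ≤ t :=
    (Submodule.norm_starProjection_apply_le T _).trans hz
  refine (norm_add_le _ _).trans_lt ?_
  have e7 := norm_add_le ((T.starProjection - T'.starProjection) (y - z)) (T.starProjection (z - z₀))
  linarith

/-- **the inclusion of the cylinders**, for measures in a slab -/
lemma incl (F : Frame m n T) (F' : Frame m n T') {ν : Measure E} {z₀ z : E} {t : ℝ}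
    {u' : Fin n → REF.E m → ℝ} (hz : ‖z - z₀‖ ≤ t)
    (hT : ‖T.starProjection - T'.starProjection‖ ≤ 1 / 8)
    (h2 : ∀ᵐ y ∂ν, ‖F'.xc (y - z)‖ < t → ‖KMS.rel T' (F'.lift u') (y - z)‖ ≤ t / 8)
    (h3 : ∀ᵐ y ∂ν, ‖F'.xc (y - z)‖ < t → ‖F'.lift u' (y - z)‖ ≤ t / 8) :
    ∀ᵐ y ∂ν, ‖F'.xc (y - z)‖ < t → ‖F.xc (y - z₀)‖ < 3 * t := by
  filter_upwards [h2, h3] with y e2 e3 e1
  exact incl_pt F F' hz hT e1 (e2 e1) (e3 e1)

/-- **heights over two planes**: the centre of `T` is `0` -/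
theorem heights_le (F : Frame m n T) (F' : Frame m n T') {ν : Measure E} [IsFiniteMeasure ν]
    {z : E} {t c c' η : ℝ} {u ut u' : Fin n → REF.E m → ℝ} (hz : ‖z‖ ≤ t)
    (hT : ‖T.starProjection - T'.starProjection‖ ≤ 1 / 8)
    (hu : ∀ a, Continuous (u a)) (hu' : ∀ a, Continuous (u' a))
    (hcl : ∀ a x, ‖x‖ < 3 * t → |ut a x - u a x| ≤ η)
    (hle : ∀ Y, ‖KMS.rel T' (F'.lift u') (Y - z)‖ ≤ 2 * ‖KMS.rel T (F.lift ut) Y‖)
    (hle' : ∀ Y, ‖KMS.rel T (F.lift ut) Y‖ ≤ 2 * ‖KMS.rel T' (F'.lift u') (Y - z)‖)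
    (hsl : ∀ᵐ y ∂ν, ‖F.xc y‖ < 3 * t → ‖KMS.rel T (F.lift u) y‖ ≤ c)
    (hsl' : ∀ᵐ y ∂ν, ‖F'.xc (y - z)‖ < 3 * t → ‖KMS.rel T' (F'.lift u') (y - z)‖ ≤ c')
    (hs1 : ∀ᵐ y ∂ν, ‖F.xc y‖ < t → ‖KMS.rel T (F.lift u) y‖ ≤ t / 8)
    (hs2 : ∀ᵐ y ∂ν, ‖F.xc y‖ < t → ‖F.lift u y‖ ≤ t / 8)
    (hs1' : ∀ᵐ y ∂ν, ‖F'.xc (y - z)‖ < t → ‖KMS.rel T' (F'.lift u') (y - z)‖ ≤ t / 8)
    (hs2' : ∀ᵐ y ∂ν, ‖F'.xc (y - z)‖ < t → ‖F'.lift u' (y - z)‖ ≤ t / 8) :
    (∫ y in {y | ‖F'.xc (y - z)‖ < t}, ‖KMS.rel T' (F'.lift u') (y - z)‖ ^ 2 ∂ν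
      ≤ 8 * ∫ y in {y | ‖F.xc y‖ < 3 * t}, ‖KMS.rel T (F.lift u) y‖ ^ 2 ∂ν
        + 8 * n * η ^ 2 * ν.real {y | ‖F.xc y‖ < 3 * t}) ∧
    (∫ y in {y | ‖F.xc y‖ < t}, ‖KMS.rel T (F.lift u) y‖ ^ 2 ∂ν
      ≤ 8 * ∫ y in {y | ‖F'.xc (y - z)‖ < 3 * t}, ‖KMS.rel T' (F'.lift u') (y - z)‖ ^ 2 ∂ν
        + 2 * n * η ^ 2 * ν.real {y | ‖F'.xc (y - z)‖ < 3 * t}) := by
  have hT' : ‖T'.starProjection - T.starProjection‖ ≤ 1 / 8 := by rwa [norm_sub_rev]
  have i1 := relsq_int F (z := 0) (s := 3 * t) (c := c) hu (by simpa using hsl) (ν := ν)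
  have i2 := relsq_int F' (z := z) (s := 3 * t) (c := c') hu' hsl' (ν := ν)
  have n1 := incl F F' (ν := ν) (z₀ := 0) (z := z) (t := t) (by simpa using hz) hT hs1' hs2'
  have n2 := incl F' F (ν := ν) (z₀ := z) (z := 0) (t := t) (by simpa using hz) hT'
    (by simpa using hs1) (by simpa using hs2)
  constructor
  · have h := height_le F F' (ν := ν) (z₀ := 0) (z := z) (t := t) (S := 3 * t) hcl
      (fun Y _ => by simpa using hle Y) n1 i1
    simpa using h
  · have h := height_ge F F' (ν := ν) (z₀ := 0) (z := z) (t := t) (S := 3 * t)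
      (η := η) (u := u) (ut := ut)
      (fun a x hx => hcl a x (by have := norm_nonneg x; linarith))
      (fun Y _ => by simpa using hle' Y) n2 i2
    simpa using h

end

end Vale.Agent.P214.BTWO
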