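import Vale.Agent.P214.REG.Stmts
import Vale.Agent.P214.STR.Scale

/-!
# P214, target B, block [B4-TWO]: more derivatives of an exact reference, at any scale

`reg_more`: an exact solution over `‖x‖ < ρ`, small in the first `2m+1` scaled derivatives, is as
small (up to a constant) in the first `q` scaled derivatives over `‖x‖ < 7ρ/8`.
-/

open Set Filter Topology MeasureTheory Metric Matrix
open scoped RealInnerProductSpace ENNReal ContDiff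

set_option linter.all false

namespace Vale.Agent.P214.BTWO

open WIN STR

noncomputable section

lemma mop_zero_fun (m n : ℕ) (a : Fin n) (x : REF.E m) :
    REF.Mop (fun (_ : Fin n) (_ : REF.E m) => (0 : ℝ)) a x = 0 := by
  unfold REF.Mop
  simp only [REF.pd_zero, mul_zero, Finset.sum_const_zero]

/-- **all scaled derivatives of a small exact solution** -/
theorem reg_more (m n q : ℕ) : ∃ e0 : ℝ, 0 < e0 ∧ ∃ C : ℝ, 1 ≤ C ∧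
    ∀ (u : Fin n → REF.E m → ℝ) (ρ ε : ℝ), 0 < ρ → 0 ≤ ε → ε ≤ e0 →
      (∀ a, ContDiff ℝ ∞ (u a)) →
      (∀ a k, 1 ≤ k → k ≤ 2 * m + 1 → ∀ x, ‖x‖ < ρ →
        ‖iteratedFDeriv ℝ k (u a) x‖ ≤ ε * (ρ * ρ⁻¹ ^ k)) →
      (∀ a x, ‖x‖ < ρ → REF.Mop u a x = 0) →
      ∀ a k, 1 ≤ k → k ≤ q → ∀ x, ‖x‖ < ρ * (7 / 8) →
        ‖iteratedFDeriv ℝ k (u a) x‖ ≤ C * ε * (ρ * ρ⁻¹ ^ k) := by
  obtain ⟨e0, he0, hreg⟩ := REG.regDiff m n
  obtain ⟨C, hC, hb⟩ := hreg q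
  refine ⟨e0, he0, max 1 (C * 8 ^ q), le_max_left _ _,
    fun u ρ ε hρ hε hεe hu hs hex a k hk1 hk x hx => ?_⟩
  have hρ0 : ρ ≠ 0 := hρ.ne'
  -- the dilated solution
  have hv : ∀ a, ContDiff ℝ ∞ (sc ρ (u a)) := fun a => contDiff_sc (hu a)
  have hsmall : ∀ a, ∀ k, 1 ≤ k → k ≤ 2 * m + 1 → ∀ y : REF.E m, ‖y‖ < 1 →
      ‖iteratedFDeriv ℝ k (sc ρ (u a)) y‖ ≤ ε := by
    intro a k hk1 hk y hy
    rw [norm_iter_sc hρ (hu a)]
    have h1 : ‖ρ • y‖ < ρ := by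
      rw [norm_smul, Real.norm_eq_abs, abs_of_pos hρ]
      nlinarith
    calc ρ⁻¹ * ρ ^ k * ‖iteratedFDeriv ℝ k (u a) (ρ • y)‖
        ≤ ρ⁻¹ * ρ ^ k * (ε * (ρ * ρ⁻¹ ^ k)) := by
          have := hs a k hk1 hk (ρ • y) h1
          gcongr
      _ = ε * ((ρ⁻¹ * ρ) * (ρ * ρ⁻¹) ^ k) := by rw [mul_pow]; ring
      _ = ε := by rw [inv_mul_cancel₀ hρ0, mul_inv_cancel₀ hρ0]; simp
  have hMop : ∀ a (y : REF.E m), ‖y‖ < 1 → REF.Mop (fun a => sc ρ (u a)) a y = 0 := by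
    intro a y hy
    rw [Mop_sc hρ0, hex a _ (by
      rw [norm_smul, Real.norm_eq_abs, abs_of_pos hρ]
      nlinarith), mul_zero]
  -- the centre
  set y0 : REF.E m := ρ⁻¹ • x with hy0
  have hy0n : ‖y0‖ < 7 / 8 := by
    rw [hy0, norm_smul, Real.norm_eq_abs, abs_of_pos (inv_pos.2 hρ)]
    calc ρ⁻¹ * ‖x‖ < ρ⁻¹ * (ρ * (7 / 8)) := mul_lt_mul_of_pos_left hx (inv_pos.2 hρ)
      _ = 7 / 8 := by rw [← mul_assoc, inv_mul_cancel₀ hρ0, one_mul]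
  have hin : ∀ y : REF.E m, ‖y - y0‖ < 1 / 8 → ‖y‖ < 1 := fun y hy => by
    have := norm_add_le (y - y0) y0
    rw [sub_add_cancel] at this
    linarith
  have hz : ∀ a, (fun y : REF.E m => sc ρ (u a) y - (fun (_ : Fin n) (_ : REF.E m) => (0:ℝ)) a y)
      = sc ρ (u a) := fun a => by funext y; simp
  have h := hb (fun (_ : Fin n) (_ : REF.E m) => (0:ℝ)) (fun a => sc ρ (u a)) y0 (1 / 8) ε
    (by norm_num) (by norm_num) (fun a => contDiff_const) hv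
    (fun a k hk1 hk y hy => by
      have h0 : iteratedFDeriv ℝ k (fun _ : REF.E m => (0:ℝ)) = 0 := by
        funext w
        simp [iteratedFDeriv_zero_fun]
      rw [h0]; simpa using he0.le)
    (fun a k hk1 hk y hy => (hsmall a k hk1 hk y (hin y hy)).trans hεe)
    (fun a y hy => mop_zero_fun m n a y)
    (fun a y hy => hMop a y (hin y hy))
    (fun a k hk1 hk y hy => by
      rw [hz a]
      exact hsmall a k hk1 hk y (hin y hy)) a k hk1 hk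
  rw [hz a, norm_iter_sc hρ (hu a)] at h
  have hx' : ρ • y0 = x := by rw [hy0, smul_smul, mul_inv_cancel₀ hρ0, one_smul]
  rw [hx'] at h
  have h2 : ‖iteratedFDeriv ℝ k (u a) x‖ = (ρ * ρ⁻¹ ^ k) *
      (ρ⁻¹ * ρ ^ k * ‖iteratedFDeriv ℝ k (u a) x‖) := by
    have : (ρ * ρ⁻¹ ^ k) * (ρ⁻¹ * ρ ^ k) = 1 := by
      rw [show (ρ * ρ⁻¹ ^ k) * (ρ⁻¹ * ρ ^ k) = (ρ * ρ⁻¹) * (ρ⁻¹ * ρ) ^ k by rw [mul_pow]; ring,
        mul_inv_cancel₀ hρ0, inv_mul_cancel₀ hρ0]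
      simp
    rw [← mul_assoc, this, one_mul]
  have h3 : ((1:ℝ) / 8)⁻¹ ^ k ≤ 8 ^ q := by
    rw [one_div, inv_inv]
    exact pow_le_pow_right₀ (by norm_num) hk
  rw [h2]
  have h4 : 0 ≤ ρ * ρ⁻¹ ^ k := by positivity
  calc (ρ * ρ⁻¹ ^ k) * (ρ⁻¹ * ρ ^ k * ‖iteratedFDeriv ℝ k (u a) x‖)
      ≤ (ρ * ρ⁻¹ ^ k) * (C * (1 / 8)⁻¹ ^ k * ε) := mul_le_mul_of_nonneg_left h h4
    _ ≤ (ρ * ρ⁻¹ ^ k) * (C * 8 ^ q * ε) := by gcongr
    _ ≤ (ρ * ρ⁻¹ ^ k) * (max 1 (C * 8 ^ q) * ε) := by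
        have := le_max_right 1 (C * 8 ^ q)
        gcongr
    _ = max 1 (C * 8 ^ q) * ε * (ρ * ρ⁻¹ ^ k) := by ring

end

end Vale.Agent.P214.BTWO
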