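import Vale.Agent.P214.BTWO.Close
import Vale.Agent.P214.BTWO.Reg
import Vale.Agent.P214.BW2.OfRG
import Vale.Agent.P214.RG.Frames

/-!
# P214, target B, block [B4-TWO]: two references at two centres over two planes

`two`: the reference `u'` over `T'` at the centre `z`, seen as a graph over `T`, is
`s s⁻¹ ^ k h ^ (1/2 + 1/16)`-close to the reference `u` over `T` at the centre `0`.
-/

open Set Filter Topology MeasureTheory Metric Matrix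
open scoped RealInnerProductSpace ENNReal ContDiff

set_option linter.all false

namespace Vale.Agent.P214.BTWO

open WIN STR WSEQ

noncomputable section

/-- the number of derivatives -/
lemma small_reg {m n : ℕ} {C' C'' ε s ρ : ℝ} {q : ℕ} (hs : 0 < s) (hρ : ρ = 3 / 4 * s)
    (hC' : 0 ≤ C') (hC'' : 0 ≤ C'') (hε : 0 ≤ ε) (hCε : C'' * C' * 2 ^ q * ε ≤ 1) {k : ℕ}
    (hk1 : 1 ≤ k) (hk : k ≤ q) : C'' * (C' * ε) * (ρ * ρ⁻¹ ^ k) ≤ s * s⁻¹ ^ k := by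
  have e1 : ρ * ρ⁻¹ ^ k ≤ 2 ^ q * (s * s⁻¹ ^ k) := by
    have e2 : ρ⁻¹ = 4 / 3 * s⁻¹ := by rw [hρ]; field_simp
    rw [e2, mul_pow, hρ]
    have e3 : ((4:ℝ) / 3) ^ k ≤ 2 ^ q :=
      (pow_le_pow_left₀ (by norm_num) (by norm_num) k).trans
        (pow_le_pow_right₀ (by norm_num) hk)
    have e4 : 0 ≤ s * s⁻¹ ^ k := by positivity
    have e5 : 0 ≤ ((4:ℝ) / 3) ^ k := by positivity
    nlinarith
  have e4 : 0 ≤ s * s⁻¹ ^ k := by positivity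
  calc C'' * (C' * ε) * (ρ * ρ⁻¹ ^ k) ≤ C'' * (C' * ε) * (2 ^ q * (s * s⁻¹ ^ k)) := by gcongr
    _ = (C'' * C' * 2 ^ q * ε) * (s * s⁻¹ ^ k) := by ring
    _ ≤ 1 * (s * s⁻¹ ^ k) := by gcongr
    _ = _ := one_mul _

/-- **two references at two centres over two planes** -/
theorem two (E : Type*) [NormedAddCommGroup E] [InnerProductSpace ℝ E]
    [FiniteDimensional ℝ E] [MeasurableSpace E] [BorelSpace E] (m n Q : ℕ) (hQ : 1 ≤ Q) :
    ∃ ε₀ C : ℝ, 0 < ε₀ ∧ 1 ≤ C ∧ ∀ (T T' : Submodule ℝ E) (F : Frame m n T) (F' : Frame m n T')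
      (ν : Measure E) (z : E) (ε s h b : ℝ) (u u' : Fin n → REF.E m → ℝ), 0 < s → 0 ≤ ε →
      ε ≤ ε₀ → 0 < h → h ≤ ε₀ → 3 / 4 ≤ b → IsFiniteMeasure ν →
      ‖T.starProjection - T'.starProjection‖ ≤ ε → ‖z‖ ≤ s / 8 → ‖FV.co T z‖ ≤ ε * s →
      At m n Q F ν 0 ε s h b u → At m n Q F' ν z ε s h b u' →
      ∃ ut : Fin n → REF.E m → ℝ, (∀ a, ContDiff ℝ ∞ (ut a)) ∧
        (∀ a, ∀ k, 1 ≤ k → k ≤ sW m → ∀ x,
          ‖iteratedFDeriv ℝ k (ut a) x‖ ≤ C * ε * (s * s⁻¹ ^ k)) ∧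
        (∀ a x, |ut a x| ≤ C * ε * (s + ‖x‖)) ∧
        (∀ a x, ‖x‖ < 3 / 4 * s → REF.Mop ut a x = 0) ∧
        RG.Same T (F.lift ut) T' (fun Y => F'.lift u' (Y - z) + FV.co T' z) ∧
        (∀ Y, KMS.rel T (F.lift ut) Y = 0 ↔ KMS.rel T' (F'.lift u') (Y - z) = 0) ∧
        ∀ a, ∀ k ≤ 3, ∀ x, ‖x‖ ≤ s / 4 →
          ‖iteratedFDeriv ℝ k (fun x => ut a x - u a x) x‖
            ≤ s * s⁻¹ ^ k * h ^ ((1:ℝ) / 2 + 1 / 16) := by
  obtain ⟨ε₁, C₁, hε₁, hC₁, hfr⟩ :=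
    RG.frames (E := E) (s := sW m) (by unfold sW; omega) m n
  obtain ⟨ε₂, hε₂, C₂, hC₂, hreg⟩ := reg_more m n (sW m + 1)
  obtain ⟨C₃, hC₃, hweak⟩ := BW2.weak_at m n
  have hC₁0 : 0 < C₁ := by linarith
  obtain ⟨ε₃, hε₃, hε₃', hclose⟩ := close E m n Q hQ C₃ C₁ hC₁0
  have hn : (0:ℝ) ≤ n := Nat.cast_nonneg n
  set C : ℝ := C₁ * (n + 2) with hCd
  have hC1 : 1 ≤ C := by nlinarith
  have hC0 : 0 < C := by linarith
  set D : ℝ := 64 * (n + 1) + 8 * C + C₂ * C₁ * 2 ^ (sW m + 1) with hDd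
  have hD : 0 < D := by positivity
  refine ⟨min (min ε₁ ε₃) (min (ε₂ / C₁) (min 1 D⁻¹)), C, by positivity, hC1, ?_⟩
  intro T T' F F' ν z ε s h b u u' hs hε hεe h0 hhe hb hfin hTT hz hcz H H'
  have hm1 := hεe.trans (min_le_left _ _)
  have hm2 := hεe.trans (min_le_right _ _)
  have hεε₁ : ε ≤ ε₁ := hm1.trans (min_le_left _ _)
  have hεε₃ : ε ≤ ε₃ := hm1.trans (min_le_right _ _)
  have hεε₂ : C₁ * ε ≤ ε₂ := by
    have h1 : ε ≤ ε₂ / C₁ := hm2.trans (min_le_left _ _)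
    rw [le_div_iff₀ hC₁0] at h1
    linarith
  have hε1 : ε ≤ 1 := (hm2.trans (min_le_right _ _)).trans (min_le_left _ _)
  have hDε : D * ε ≤ 1 := by
    have h1 : ε ≤ D⁻¹ := (hm2.trans (min_le_right _ _)).trans (min_le_right _ _)
    calc D * ε ≤ D * D⁻¹ := by gcongr
      _ = 1 := mul_inv_cancel₀ hD.ne'
  have hhε₃ : h ≤ ε₃ := (hhe.trans (min_le_left _ _)).trans (min_le_right _ _)
  have hx1 : 0 ≤ 64 * ((n:ℝ) + 1) * ε := by positivity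
  have hx2 : 0 ≤ 8 * C * ε := by positivity
  have hx3 : 0 ≤ C₂ * C₁ * 2 ^ (sW m + 1) * ε := by positivity
  have hDsum : D * ε = 64 * (n + 1) * ε + 8 * C * ε + C₂ * C₁ * 2 ^ (sW m + 1) * ε := by
    rw [hDd]; ring
  have h64 : 64 * (n + 1) * ε ≤ 1 := by linarith
  have h8C : 8 * C * ε ≤ 1 := by linarith
  have hCC : C₂ * C₁ * 2 ^ (sW m + 1) * ε ≤ 1 := by linarith
  -- the regraph
  have hb' : ∀ a k, 1 ≤ k → k ≤ sW m → ∀ x, s ^ k * ‖iteratedFDeriv ℝ k (u' a) x‖ ≤ s * ε := by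
    intro a k h1 h2 x
    calc s ^ k * ‖iteratedFDeriv ℝ k (u' a) x‖ ≤ s ^ k * (ε * (s * s⁻¹ ^ k)) := by
          have := H'.small a k h1 h2 x
          gcongr
      _ = (s * s⁻¹) ^ k * (s * ε) := by rw [mul_pow]; ring
      _ = s * ε := by rw [mul_inv_cancel₀ hs.ne', one_pow, one_mul]
  obtain ⟨ut, hut, hbd, hval, hval2, hex, hS, hiff⟩ :=
    hfr T T' F F' u' ε s z hs hε hεε₁ hTT H'.smooth hb'
  have hsm : ∀ a, ∀ k, 1 ≤ k → k ≤ sW m → ∀ x,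
      ‖iteratedFDeriv ℝ k (ut a) x‖ ≤ C₁ * ε * (s * s⁻¹ ^ k) := by
    intro a k h1 h2 x
    have h3 := hbd a k h1 h2 x
    have h4 : 0 < s ^ k := by positivity
    have h5 : (s * s⁻¹) ^ k = 1 := by rw [mul_inv_cancel₀ hs.ne', one_pow]
    calc ‖iteratedFDeriv ℝ k (ut a) x‖
        = (s * s⁻¹) ^ k * ‖iteratedFDeriv ℝ k (ut a) x‖ := by rw [h5, one_mul]
      _ = s⁻¹ ^ k * (s ^ k * ‖iteratedFDeriv ℝ k (ut a) x‖) := by rw [mul_pow]; ring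
      _ ≤ s⁻¹ ^ k * (s * (C₁ * ε)) := by gcongr
      _ = _ := by ring
  have hl0 : ‖F'.lift u' 0‖ ≤ n * (ε * s) := by
    refine norm_lift_le F' u' 0 fun a => ?_
    have h1 : F'.xc (0:E) = 0 := by
      rw [← norm_eq_zero, F'.norm_xc, map_zero, norm_zero]
    rw [h1]
    exact H'.val a
  have hsum : ∀ x : REF.E m, C₁ * (‖F'.lift u' 0‖ + ‖FV.co T z‖ + ε * (‖x‖ + ‖z‖))
      ≤ C * ε * (s + ‖x‖) := by
    intro x
    have hx := norm_nonneg x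
    calc C₁ * (‖F'.lift u' 0‖ + ‖FV.co T z‖ + ε * (‖x‖ + ‖z‖))
        ≤ C₁ * (n * (ε * s) + ε * s + ε * (‖x‖ + s)) := by
          gcongr; linarith
      _ ≤ C₁ * (n * (ε * s) + ε * s + ε * (‖x‖ + s)) + C₁ * ((n + 1) * ε * ‖x‖) := by
          have : 0 ≤ C₁ * ((n + 1) * ε * ‖x‖) := by positivity
          linarith
      _ = C * ε * (s + ‖x‖) := by rw [hCd]; ring
  have hex34 : ∀ a x, ‖x‖ < 3 / 4 * s → REF.Mop ut a x = 0 := by
    intro a x hx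
    refine hex s H'.exact x ?_ a
    have h1 := (hval x).trans (hsum x)
    have h2 : ε * ‖F.lift ut (F.up x)‖ ≤ 1 * (1 / 8 * (2 * s)) := by
      refine mul_le_mul (hε1.trans le_rfl) (h1.trans ?_) (norm_nonneg _) zero_le_one
      have h3 : C * ε ≤ 1 / 8 := by linarith
      have h4 : s + ‖x‖ ≤ 2 * s := by linarith
      exact mul_le_mul h3 h4 (by positivity) (by norm_num)
    have h3 : ε * ‖F.lift ut (F.up x)‖ ≤ ε * (1 / 8 * (2 * s)) := by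
      refine mul_le_mul_of_nonneg_left (h1.trans ?_) hε
      have h3 : C * ε ≤ 1 / 8 := by linarith
      have h4 : s + ‖x‖ ≤ 2 * s := by linarith
      exact mul_le_mul h3 h4 (by positivity) (by norm_num)
    have h5 : ε ≤ 1 / 64 := by nlinarith
    have h6 : ε * (1 / 8 * (2 * s)) ≤ 1 / 64 * (1 / 8 * (2 * s)) := by gcongr
    linarith
  -- more derivatives
  set ρ : ℝ := 3 / 4 * s with hρd
  have hρ : 0 < ρ := by positivity
  have hmore : ∀ a, ∀ k, 1 ≤ k → k ≤ sW m + 1 → ∀ x, ‖x‖ < 5 / 8 * s →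
      ‖iteratedFDeriv ℝ k (ut a) x‖ ≤ s * s⁻¹ ^ k := by
    intro a k h1 h2 x hx
    have h3 := hreg ut ρ (C₁ * ε) hρ (by positivity) hεε₂ hut (fun a k h1 h2 x _ => by
      refine (hsm a k h1 (h2.trans (by unfold sW; omega)) x).trans ?_
      exact mul_le_mul_of_nonneg_left (scaled_mono hρ (by rw [hρd]; linarith) h1)
        (by positivity)) hex34 a k h1 h2 x (by rw [hρd]; linarith)
    exact h3.trans (small_reg (m := m) (n := n) hs hρd hC₁0.le (by linarith) hε hCC h1 h2)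
  have hwk := hweak hs hε h64 h0 H H' hTT hz hut hmore hiff
  have hcl := hclose T F ν ε s h b u ut hs hε hεε₃ h0 hhε₃ hb hfin H hut hsm
    (fun a x hx => hex34 a x (hx.trans (by linarith))) hwk
  refine ⟨ut, hut, fun a k h1 h2 x => (hsm a k h1 h2 x).trans ?_, fun a x =>
    (hval2 a x).trans (hsum x), hex34, hS, hiff, hcl⟩
  have h3 : C₁ ≤ C := by nlinarith
  gcongr

end

end Vale.Agent.P214.BTWO
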