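import Vale.Agent.P214.BTWO.At
import Vale.Agent.P214.BTWO.Reg
import Vale.Agent.P214.RG.Frames

/-!
# P214, target B, block [B4-TWO]: the regraph of a reference at a second centre

`regr`: an exact reference `u'` over `T'` at the centre `z`, `‖z‖ ≤ s/8`, is an exact reference `u`
over `T` at the centre `0`, with the same graph, small scaled norms and one more derivative.
-/

open Set Filter Topology MeasureTheory Metric
open scoped RealInnerProductSpace ContDiff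

set_option linter.all false

namespace Vale.Agent.P214.BTWO

open WIN STR

noncomputable section

variable {m n : ℕ} {E : Type*} [NormedAddCommGroup E] [InnerProductSpace ℝ E]
  [FiniteDimensional ℝ E]

/-- `u` is the regraph over `T` (centre `0`) of `u'` (over `T'`, centre `z`) -/
structure Regr (m n : ℕ) {T T' : Submodule ℝ E} (F : Frame m n T) (F' : Frame m n T') (z : E)
    (C ε s : ℝ) (u' u : Fin n → REF.E m → ℝ) : Prop where
  smooth : ∀ a, ContDiff ℝ ∞ (u a)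
  small : ∀ a, ∀ k, 1 ≤ k → k ≤ sW m → ∀ x,
    ‖iteratedFDeriv ℝ k (u a) x‖ ≤ C * ε * (s * s⁻¹ ^ k)
  high : ∀ a, ∀ k, 1 ≤ k → k ≤ sW m + 1 → ∀ x, ‖x‖ < 5 / 8 * s →
    ‖iteratedFDeriv ℝ k (u a) x‖ ≤ C * ε * (s * s⁻¹ ^ k)
  exact : ∀ a x, ‖x‖ < 27 / 32 * s → REF.Mop u a x = 0
  val : ∀ a x, |u a x| ≤ C * (ε * (s + ‖x‖) + ‖FV.co T z‖)
  same : RG.Same T (F.lift u) T' (fun Y => F'.lift u' (Y - z) + FV.co T' z)
  iff : ∀ Y, KMS.rel T (F.lift u) Y = 0 ↔ KMS.rel T' (F'.lift u') (Y - z) = 0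

/-- comparison of the scaled norms at the scales `27/32 s` and `s` -/
lemma scale_cmp {s : ℝ} (hs : 0 < s) {k q : ℕ} (hk1 : 1 ≤ k) (hk : k ≤ q) :
    (27 / 32 * s) * (27 / 32 * s)⁻¹ ^ k ≤ 2 ^ q * (s * s⁻¹ ^ k) := by
  obtain ⟨j, rfl⟩ : ∃ j, k = j + 1 := ⟨k - 1, by omega⟩
  have e1 : (27 / 32 * s) * (27 / 32 * s)⁻¹ ^ (j + 1) = (32 / 27 : ℝ) ^ j * s⁻¹ ^ j := by
    rw [pow_succ, mul_comm _ ((27 / 32 * s)⁻¹), ← mul_assoc, mul_inv_cancel₀ (by positivity),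
      one_mul, ← mul_pow]
    congr 1
    field_simp
  have e2 : s * s⁻¹ ^ (j + 1) = s⁻¹ ^ j := by
    rw [pow_succ, mul_comm _ (s⁻¹), ← mul_assoc, mul_inv_cancel₀ hs.ne', one_mul]
  rw [e1, e2]
  have e3 : (32 / 27 : ℝ) ^ j ≤ 2 ^ q :=
    (pow_le_pow_left₀ (by norm_num) (by norm_num) j).trans
      (pow_le_pow_right₀ one_le_two (by omega))
  have : 0 ≤ s⁻¹ ^ j := by positivity
  gcongr

/-- **the regraph** -/
theorem regr (E : Type*) [NormedAddCommGroup E] [InnerProductSpace ℝ E] [FiniteDimensional ℝ E]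
    (m n : ℕ) : ∃ ε₀ C : ℝ, 0 < ε₀ ∧ 1 ≤ C ∧ ∀ {T T' : Submodule ℝ E} (F : Frame m n T)
    (F' : Frame m n T') (u' : Fin n → REF.E m → ℝ) (z : E) (ε s : ℝ), 0 < s → 0 ≤ ε → ε ≤ ε₀ →
    ‖T.starProjection - T'.starProjection‖ ≤ ε → ‖z‖ ≤ s / 8 → (∀ a, ContDiff ℝ ∞ (u' a)) →
    (∀ a, |u' a 0| ≤ ε * s) →
    (∀ a, ∀ k, 1 ≤ k → k ≤ sW m → ∀ x, ‖iteratedFDeriv ℝ k (u' a) x‖ ≤ ε * (s * s⁻¹ ^ k)) →
    (∀ a x, ‖x‖ < s → REF.Mop u' a x = 0) → ∃ u, Regr m n F F' z C ε s u' u := by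
  have hsW : 1 ≤ sW m := by unfold sW; omega
  obtain ⟨ε₁, C₁, hε₁, hC₁, hfr⟩ := RG.frames (E := E) hsW m n
  obtain ⟨e0, he0, C₂, hC₂, hreg⟩ := reg_more m n (sW m + 1)
  have hn : (0:ℝ) ≤ n := Nat.cast_nonneg n
  set C : ℝ := (n + 1) * C₁ * (C₂ * 2 ^ (sW m + 1)) with hC
  have h2 : (1:ℝ) ≤ 2 ^ (sW m + 1) := one_le_pow₀ one_le_two
  have hC₂2 : 1 ≤ C₂ * 2 ^ (sW m + 1) := by nlinarith
  have hCC₁ : (n + 1) * C₁ ≤ C := by
    rw [hC]
    have : 0 ≤ (n + 1) * C₁ := by positivity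
    nlinarith
  have hC₁C : C₁ ≤ (n + 1) * C₁ := by nlinarith
  have hC1 : 1 ≤ C := by nlinarith
  refine ⟨min (min ε₁ (e0 / C₁)) (min (1 / (64 * C₁)) (1 / (4 * (n + 1)))), C,
    lt_min (lt_min hε₁ (by positivity)) (lt_min (by positivity) (by positivity)), hC1, ?_⟩
  intro T T' F F' u' z ε s hs hε hεe hTT hz hu' hval hsm hex
  have hε₁' : ε ≤ ε₁ := hεe.trans ((min_le_left _ _).trans (min_le_left _ _))
  have hεe0 : C₁ * ε ≤ e0 := by
    have h1 : ε ≤ e0 / C₁ := hεe.trans ((min_le_left _ _).trans (min_le_right _ _))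
    rw [le_div_iff₀ (by linarith)] at h1
    linarith
  have hεC : C₁ * ε ≤ 1 / 64 := by
    have h1 : ε ≤ 1 / (64 * C₁) := hεe.trans ((min_le_right _ _).trans (min_le_left _ _))
    rw [le_div_iff₀ (by positivity)] at h1
    linarith
  have hεn : (n + 1) * ε ≤ 1 / 4 := by
    have h1 : ε ≤ 1 / (4 * (n + 1)) := hεe.trans ((min_le_right _ _).trans (min_le_right _ _))
    rw [le_div_iff₀ (by positivity)] at h1
    linarith
  obtain ⟨u, hu, hb, hlift, hv, hexu, hsame, hiff⟩ := hfr T T' F F' u' ε s z hs hε hε₁' hTT hu'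
    (fun a k hk1 hk x => by
      have h1 := hsm a k hk1 hk x
      calc s ^ k * ‖iteratedFDeriv ℝ k (u' a) x‖ ≤ s ^ k * (ε * (s * s⁻¹ ^ k)) := by gcongr
        _ = s * ε * ((s * s⁻¹) ^ k) := by rw [mul_pow]; ring
        _ = s * ε := by rw [mul_inv_cancel₀ hs.ne', one_pow, mul_one])
  have hlift0 : ‖F'.lift u' 0‖ ≤ n * (ε * s) := by
    refine (F'.norm_lift_le u' 0).trans ?_
    rw [F'.xc_zero]
    calc ∑ a, |u' a 0| ≤ ∑ _a : Fin n, ε * s := Finset.sum_le_sum fun a _ => hval a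
      _ = n * (ε * s) := by simp
  have hcoz : ‖FV.co T z‖ ≤ s / 8 := (FV.norm_co_le T z).trans hz
  have hsmall : ∀ a, ∀ k, 1 ≤ k → k ≤ sW m → ∀ x,
      ‖iteratedFDeriv ℝ k (u a) x‖ ≤ C₁ * ε * (s * s⁻¹ ^ k) := by
    intro a k hk1 hk x
    have h1 := hb a k hk1 hk x
    have h3 : ‖iteratedFDeriv ℝ k (u a) x‖ = s⁻¹ ^ k * (s ^ k * ‖iteratedFDeriv ℝ k (u a) x‖) := by
      rw [← mul_assoc, ← mul_pow, inv_mul_cancel₀ hs.ne', one_pow, one_mul]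
    rw [h3]
    calc s⁻¹ ^ k * (s ^ k * ‖iteratedFDeriv ℝ k (u a) x‖) ≤ s⁻¹ ^ k * (s * (C₁ * ε)) := by gcongr
      _ = _ := by ring
  have hexact : ∀ a x, ‖x‖ < 27 / 32 * s → REF.Mop u a x = 0 := by
    intro a x hx
    refine hexu s hex x ?_ a
    have h1 := hlift x
    have h3 : ε * ‖F.lift u (F.up x)‖ ≤ s / 64 := by
      have h4 : ‖F'.lift u' 0‖ + ‖FV.co T z‖ + ε * (‖x‖ + ‖z‖) ≤ s := by
        have h5 : ε * (‖x‖ + ‖z‖) ≤ ε * (s + s / 8) := by gcongr; linarith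
        nlinarith
      calc ε * ‖F.lift u (F.up x)‖
          ≤ ε * (C₁ * (‖F'.lift u' 0‖ + ‖FV.co T z‖ + ε * (‖x‖ + ‖z‖))) := by gcongr
        _ ≤ ε * (C₁ * s) := by gcongr
        _ = (C₁ * ε) * s := by ring
        _ ≤ 1 / 64 * s := by gcongr
        _ = s / 64 := by ring
    linarith
  have hρ : 0 < 27 / 32 * s := by positivity
  have hhigh := hreg u (27 / 32 * s) (C₁ * ε) hρ (by positivity) hεe0 hu
    (fun a k hk1 hk x _ => (hsmall a k hk1 (hk.trans (by unfold sW; omega)) x).trans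
      (mul_le_mul_of_nonneg_left (scaled_mono hρ (by linarith) hk1) (by positivity)))
    hexact
  refine ⟨u, hu, fun a k hk1 hk x => (hsmall a k hk1 hk x).trans ?_, fun a k hk1 hk x hx => ?_,
    hexact, fun a x => ?_, hsame, hiff⟩
  · have : C₁ ≤ C := hC₁C.trans hCC₁
    gcongr
  · refine (hhigh a k hk1 hk x (by linarith)).trans ?_
    calc C₂ * (C₁ * ε) * (27 / 32 * s * (27 / 32 * s)⁻¹ ^ k)
        ≤ C₂ * (C₁ * ε) * (2 ^ (sW m + 1) * (s * s⁻¹ ^ k)) :=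
          mul_le_mul_of_nonneg_left (scale_cmp hs hk1 hk) (by positivity)
      _ = C₁ * (C₂ * 2 ^ (sW m + 1)) * ε * (s * s⁻¹ ^ k) := by ring
      _ ≤ C * ε * (s * s⁻¹ ^ k) := by
          have : C₁ * (C₂ * 2 ^ (sW m + 1)) ≤ C := by
            rw [hC]
            have : 0 ≤ C₂ * 2 ^ (sW m + 1) := by linarith
            gcongr
          gcongr
  · refine (hv a x).trans ?_
    have h1 : ‖F'.lift u' 0‖ + ‖FV.co T z‖ + ε * (‖x‖ + ‖z‖)
        ≤ (n + 1) * (ε * (s + ‖x‖) + ‖FV.co T z‖) := by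
      have h5 : ε * (‖x‖ + ‖z‖) ≤ ε * (s + ‖x‖) :=
        mul_le_mul_of_nonneg_left (by linarith) hε
      have h6 : 0 ≤ n * (ε * ‖x‖) := by positivity
      have h7 : 0 ≤ n * ‖FV.co T z‖ := by positivity
      nlinarith
    calc C₁ * (‖F'.lift u' 0‖ + ‖FV.co T z‖ + ε * (‖x‖ + ‖z‖))
        ≤ C₁ * ((n + 1) * (ε * (s + ‖x‖) + ‖FV.co T z‖)) := by gcongr
      _ = ((n + 1) * C₁) * (ε * (s + ‖x‖) + ‖FV.co T z‖) := by ring
      _ ≤ C * (ε * (s + ‖x‖) + ‖FV.co T z‖) := by gcongr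

end

end Vale.Agent.P214.BTWO
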